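import Crest.Agent.N255.En.Defs
import Crest.Agent.N255.Md.Tu

/-!
# Row 255 (helper12): the model facts `Md` from the local structure `Ch.Loc` and two periods
-/

set_option autoImplicit false

noncomputable section

namespace Crest.Agent.N255.En
open Tp Nv Pt Lv

variable {ι S K F : Type} [DecidableEq ι] [MulAction (FreeGroup ι) S] [DecidableEq S] [LinearOrder K]
  [Group F] [MulAction F (Nd ι)] [MulAction F (Ed ι)]

omit [MulAction (FreeGroup ι) S] [DecidableEq S] [LinearOrder K] in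
theorem Face.vtx {J : Finset (Ed ι)} (h : ∀ e ∈ J, ∀ e' ∈ J, e ≠ e' → Bey (rev e) e') :
    ∃ v, ∀ e ∈ J, ¬hs e v := by
  rcases J.eq_empty_or_nonempty with rfl | ⟨e0, h0⟩
  · exact ⟨1, by simp⟩
  refine ⟨e0.v, fun e he => ?_⟩
  by_cases q : e = e0
  · exact q ▸ not_hs_v e
  · exact hs_rev.1 (bey_iff.1 (h e he e0 h0 q)).1

/-- the walls `w` are the walls of the mirror model -/
structure Wm (w : Wl ι S) {M : Ce.Mir S K F (Nd ι) (Ed ι)} (L : Ch.Loc M) : Prop where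
  Γ : w.Γ = M.Γ
  src : M.src = src
  tgt : M.tgt = tgt
  op : L.op = rev
  T : ∀ e, w.T e = M.sp (Pt.tgt e)
  B : ∀ e a, a ∉ w.B e ↔ ∃ v, ¬hs e v ∧ a ∈ M.sp ⟨v, none⟩

variable {w : Wl ι S} {M : Ce.Mir S K F (Nd ι) (Ed ι)} {L : Ch.Loc M} (h : Wm w L)
include h

namespace Wm

theorem ty (v : FreeGroup ι) : ¬M.ty ⟨v, none⟩ := fun k => by
  obtain ⟨e, he⟩ := L.mid _ k
  simpa [h.tgt, Pt.tgt] using congrArg Pt.L.k he

theorem side (e : Ed ι) : Md.Side L e {n | n.k = none ∧ ¬hs e n.v} := by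
  refine ⟨?_, ?_, ?_, fun e' q => ?_⟩
  · rintro ⟨v, _⟩ ⟨rfl, -⟩
    exact h.ty v
  · exact h.src ▸ ⟨rfl, not_hs_v e⟩
  · rw [h.src, h.op]
    exact fun k => k.2 (hs_hd e)
  · rw [h.src, h.op]
    exact fun k => ⟨rfl, fun r => q
      (rev_injective (cross (e := e) (e' := rev e') r (by rw [hd_rev]; exact k.2)))⟩

theorem mod {J : Finset (Ed ι)} {v : FreeGroup ι} (hv : ∀ e ∈ J, ¬hs e v) :
    Md.Mod M {n | ¬M.ty n ∧ ∀ e ∈ (J : Set (Ed ι)), n ∈ {n : Nd ι | n.k = none ∧ ¬hs e n.v}} = w.Mod J :=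
  Set.ext fun a => (Md.mod_sides (fun e _ => h.side e) (n0 := ⟨v, none⟩)
    ⟨h.ty v, fun e he => ⟨rfl, hv e he⟩⟩).trans (forall₂_congr fun e _ => Iff.trans
      ⟨by rintro ⟨⟨u, _⟩, ⟨rfl, h1⟩, h2⟩; exact ⟨u, h1, h2⟩,
        fun ⟨u, h1, h2⟩ => ⟨_, ⟨rfl, h1⟩, h2⟩⟩ (h.B e a).symm)

theorem wall (e : Ed ι) : (M.sp (M.tgt e) : Set S) = w.T e := by rw [h.T, h.tgt]

end Wm

omit h [DecidableEq S] in
theorem Wl.mod_window (w : Wl ι S) {J : Finset (Ed ι)} {e : Ed ι} (hJ : (J : Set (Ed ι)) = {e, rev e}) :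
    w.Mod J = w.T e := by
  ext a
  have : ∀ j, j ∈ J ↔ j = e ∨ j = rev e := fun j => by rw [← Finset.mem_coe, hJ]; rfl
  simp only [Wl.Mod, this, Set.mem_ofPred_eq, forall_eq_or_imp, forall_eq]
  exact ⟨fun k => ((w.tri e a).resolve_right fun r => r.elim k.1 k.2),
    fun k => ⟨w.TB e a k, w.TB _ a (w.T_rev e ▸ k)⟩⟩

/-- **the model facts from the local structure** -/
def Wm.md (mer : Ed ι → S → S → ℤ)
    (smul : ∀ (f : FreeGroup ι) e a b, mer (f • e) (f • a) (f • b) = mer e a b)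
    (add : ∀ e a b c, a ∉ w.B e → b ∉ w.B e → c ∉ w.B e → Cl w.Γ a b → Cl w.Γ b c → Cl w.Γ a c →
      mer e a c = mer e a b + mer e b c)
    (zero : ∀ e e' a b, Bey (rev e) e' → a ∉ w.B (rev e') → b ∉ w.B (rev e') → mer e a b = 0)
    (q1 : ∀ e, Md.p1 M e (L.m e) (mer e) = 1)
    (q2 : ∀ e, ∃ u, Md.p2 M e (L.ω e) (fun a b c => mer e a b * mer (rev e) b c) * u = 1) : Md w :=
  have z : ∀ e, Md.Z1 M.Γ (w.B e)ᶜ (mer e) := fun e a ha b hb c hc h1 h2 h3 =>
    add e a b c ha hb hc (h.Γ ▸ h1) (h.Γ ▸ h3) (h.Γ ▸ h2)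
  have zT : ∀ e, Md.Z1 M.Γ (M.sp (M.tgt e) : Set S) (mer e) := fun e =>
    (z e).mono (h.wall e ▸ w.TB e)
  have zT' : ∀ e, Md.Z1 M.Γ (M.sp (M.tgt e) : Set S) (mer (rev e)) := fun e => by
    simpa only [h.tgt, tgt_rev] using zT (rev e)
  have l0 : ∀ e, Md.p1 M e (L.m (L.op e)) (mer e) = 0 := fun e =>
    Md.lon L e ((z e).mono fun a ha => (h.B e a).2 ⟨e.v, not_hs_v e, by rwa [h.src] at ha⟩)
  { mer := mer
    mer_smul := smul
    mer_add := add
    mer_zero := zero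
    ne := fun J hJ => by
      rcases hJ with hJ | ⟨e, hJ⟩
      · obtain ⟨v, hv⟩ := Face.vtx hJ
        obtain ⟨t, ht, ho⟩ := (L.wal _ (h.ty v)).top ∅ ⟨by simp, by simp, by simp⟩
        have h4 := ((L.wal _ (h.ty v)).o_sup t (by rcases ho with h | h <;> simp [h])).2
        obtain ⟨s, hs⟩ := Finset.card_pos.1 (show 0 < t.card by omega)
        exact ⟨s, fun e he => (h.B e s).2 ⟨v, hv e he, ht.2.2 hs⟩⟩
      · exact w.mod_window hJ ▸ w.T_ne e
    h0 := fun J hJ A _ ψ hψ => by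
      have k : ∀ a ∈ w.Mod J, ∀ b ∈ w.Mod J, ψ ![a] = ψ ![b] := by
        have := Md.z0_of (Γ := w.Γ) hψ
        rw [h.Γ] at this
        rcases hJ with hJ | ⟨e, hJ⟩
        · obtain ⟨v, hv⟩ := Face.vtx hJ
          rw [← h.mod hv] at this ⊢
          exact N255.Md.h0 (Md.sub_sides fun e _ => h.side e) this
        · rw [w.mod_window hJ, ← h.wall] at this ⊢
          exact Md.t0 L e this
      by_cases q : (w.Mod J).Nonempty
      · obtain ⟨a, ha⟩ := q
        exact ⟨ψ ![a], fun v hv => (Md.tu0 ψ v).trans (k _ (hv.1 ⟨0, rfl⟩) a ha)⟩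
      · exact ⟨0, fun v hv => absurd ⟨_, hv.1 ⟨0, rfl⟩⟩ q⟩
    h1 := fun J hJ A _ ψ hψ => by
      have k : ∃ (c : Ed ι → A) (η : S → A), ∀ a ∈ w.Mod J, ∀ b ∈ w.Mod J, Md.Cl w.Γ a b →
          ψ ![a, b] = η b - η a + ∑ e ∈ J, mer e a b • c e := by
        have := Md.z1_of (Γ := w.Γ) hψ
        rw [h.Γ] at this ⊢
        rcases hJ with hJ | ⟨e, hJ⟩
        · obtain ⟨v, hv⟩ := Face.vtx hJ
          have em := h.mod hv
          rw [← em] at this ⊢
          exact ⟨_, N255.Md.h1_span (Md.sub_sides fun e _ => h.side e) this J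
            (fun e h1 h2 => Md.bd_sides (J := (J : Set (Ed ι))) (fun e _ => h.side e) h1 h2)
            (fun j hj => em ▸ (z j).mono fun a ha => ha j hj) fun e he j hj => by
              split_ifs with q
              · exact q ▸ q1 j
              · exact Md.p1_exact (L.cm e) (η := 0) fun a ha b hb _ => by
                  have t : ∀ {a}, a ∈ M.sp (M.tgt e) → a ∉ w.B (rev e) := fun k =>
                    w.TB _ _ (by rw [w.T_rev, ← h.wall]; exact k)
                  rw [zero j e a b (hJ j hj e he q) (t ha) (t hb)]; simp⟩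
        · rw [w.mod_window hJ, ← h.wall] at this ⊢
          obtain rfl : J = {e, rev e} := Finset.coe_injective (by rw [hJ]; simp)
          have b1 := l0 (rev e)
          have b2 := q1 (rev e)
          rw [h.op, rev_rev] at b1
          rw [Md.p1, h.tgt, tgt_rev, ← h.tgt] at b1 b2
          obtain ⟨η, k⟩ := Md.t1_span L e this (zT e) (zT' e) (q1 e) (l0 e) b1 (h.op ▸ b2)
          refine ⟨fun j => Md.p1 M e (L.m j) fun a b => ψ ![a, b], η, fun a ha b hb c => ?_⟩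
          rw [k a ha b hb c, Finset.sum_pair (rev_ne e).symm, h.op, add_assoc]
      obtain ⟨c, η, k⟩ := k
      exact ⟨c, _, fun v hv => (Md.ex1_of ℤ k v hv).trans (add_comm _ _)⟩
    h2 := fun e A _ ψ hψ => by
      have := Md.z2_of (Γ := w.Γ) hψ
      obtain ⟨u, hu⟩ := q2 e
      rw [h.Γ, ← h.wall] at this
      obtain ⟨η, k⟩ := Md.t2_span L e this ((zT e).cup (zT' e)) hu
      rw [← h.Γ] at k
      exact ⟨_, _, fun v hv => (Md.ex2_of ℤ (U := w.T e)
        (r := fun a b c => (mer e a b * mer (rev e) b c) • _) (by rw [← h.wall]; exact k) v hv).trans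
          (add_comm _ _)⟩ }

end Crest.Agent.N255.En

end
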