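import Crest.Agent.N255.En.Defs
import Crest.Agent.N255.Da.ColA

/-!
# Row 255 (helper41): the walls of the tree of chambers
-/

set_option autoImplicit false

noncomputable section

namespace Crest.Agent.N255.En

open Set Nv Pt Lv

variable {ι I Tor K : Type} [DecidableEq ι] [Finite Tor] [Nonempty Tor]

/-- the walls of the cover of any finite data whose half links are non-evasive -/
def wlOf (D : Dt ι I Tor K) (h : ∃ m, ∀ (e : Ed ι) (s : Finset (Pt.St ι I Tor)), s.Nonempty →
    (s : Set (Pt.St ι I Tor)) ⊆ supE e →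
    Cq (Cl D.Gt) s → Nev (Cl D.Gt) m {b | b ∈ A e ∧ ∀ a ∈ s, Cl D.Gt a b}) : Wl ι (Pt.St ι I Tor) where
  Γ := D.Gt
  adj_smul := D.adj_smul
  dim _ h := D.card_le_four fun a ha b hb e => (h a ha b hb).resolve_left e
  T := supE
  B := A
  T_rev := supE_rev
  T_smul f e a := smul_mem_supE_iff f a e
  B_smul f _ _ := smul_mem_A f
  T_fin := supE_finite
  T_ne _ := range_nonempty _
  tri e a := by have := A_trich e a; tauto
  TB _ _ h k := A_not_supE k h
  BB _ _ _ h k c := c.elim (fun c => A_not_rev h (c ▸ k)) fun c => A_sep D c h k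
  bey e e' h a k := h.A fun c => k.elim (fun k => A_not_supE c ((supE_rev e').symm.subset k))
    fun k => A_not_rev k c
  nev := h

/-- **the walls of the data** -/
def wl : Wl (Fin 3) Da.SS := wlOf Da.D ⟨8, fun e _ hs hT hq => Da.nev_A e hs hT hq⟩

@[simp] theorem wl_Γ : wl.Γ = Da.D.Gt := rfl
@[simp] theorem wl_T : wl.T = supE := rfl
@[simp] theorem wl_B : wl.B = A := rfl

theorem cl_eq {S : Type} (G : SimpleGraph S) : Cl G = Da.Rl G := rfl

end Crest.Agent.N255.En

end
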