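import Crest.Agent.N255.En.MdA
import Crest.Agent.N255.En.Wl
import Crest.Agent.N255.Md.Da

/-!
# Row 255 (helper12): the model facts `Md` for the concrete graph
-/

set_option autoImplicit false

noncomputable section

namespace Crest.Agent.N255.En
open Tp Nv Pt Lv Da

open Classical in
/-- the meridian classes, cut off outside the cliques -/
def mr (e : Ed (Fin 3)) (a b : St (Fin 3) (Fin 112) (Fin 16)) : ℤ :=
  if Cl D.Gt a b then Md.xi e a b else 0

theorem mr_eq (e : Ed (Fin 3)) {a b : St (Fin 3) (Fin 112) (Fin 16)} (h : Cl D.Gt a b) :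
    mr e a b = Md.xi e a b := if_pos h

theorem mr_cp (e : Ed (Fin 3)) {a b : VV} (h : Gd.Cl a b) :
    mr e (cp e.v a) (cp e.v b) = Gd.x e.k a b :=
  (mr_eq e ((Md.cl_cp D _ _ _).2 h)).trans (Md.xi_cp e a b)

theorem mr_wall {e : Ed (Fin 3)} {a b : St (Fin 3) (Fin 112) (Fin 16)} (ha : a ∈ supE e)
    (hb : b ∈ supE e) (h : Cl D.Gt a b) : mr e a b = Md.sE e.k.2 a b :=
  (mr_eq e h).trans (Md.xi_wall ha hb h)

theorem mr_wall' {e : Ed (Fin 3)} {a b : St (Fin 3) (Fin 112) (Fin 16)} (ha : a ∈ supE e)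
    (hb : b ∈ supE e) (h : Cl D.Gt a b) : mr (rev e) a b = Md.sE (!e.k.2) a b :=
  mr_wall (by rwa [supE_rev]) (by rwa [supE_rev]) h

theorem mr_smul (f : FreeGroup (Fin 3)) (e : Ed (Fin 3)) (a b : St (Fin 3) (Fin 112) (Fin 16)) :
    mr (f • e) (f • a) (f • b) = mr e a b := by
  classical
  exact if_congr (or_congr (MulAction.injective f).eq_iff (D.adj_smul f a b)) (Md.xi_smul f e a b) rfl

theorem mr_zero {e e' : Ed (Fin 3)} {a b : St (Fin 3) (Fin 112) (Fin 16)} (h : Bey (rev e) e')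
    (ha : a ∉ A (rev e')) (hb : b ∉ A (rev e')) : mr e a b = 0 := by
  by_cases c : Cl D.Gt a b
  swap
  · exact if_neg c
  rw [mr_eq e c]
  by_contra k
  obtain ⟨a, b, rfl, rfl, -⟩ := Md.ex0_ne k
  have n : ¬hs e' e.v := fun q => not_bey_self e' (by
    rwa [cross (e := e') (e' := e) q (bey_iff.1 h).2, rev_rev] at h)
  have t : ∀ {a : VV}, cp e.v a ∉ A (rev e') → cp e.v a ∈ supE e' := fun ha =>
    ((A_trich e' _).resolve_left fun q => n (cp_mem_A q)).resolve_left ha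
  exact k (Md.xi_wall_ne (fun q => not_bey_rev (rev e) (by rwa [q, ← rev_rev e, rev_rev (rev e)] at h))
    (fun q => not_bey_self (rev e) (by rwa [q] at h)) (t ha) (t hb) c)

theorem wm : Wm wl loc :=
  ⟨rfl, rfl, rfl, rfl, fun e => (Md.coe_wall e).symm, fun e a => Md.nmem_A.trans
    ⟨fun ⟨v, b, h1, h2⟩ => ⟨v, h1, (mem_sp (s := a)).2 ⟨b, h2⟩⟩,
      fun ⟨v, h1, h2⟩ => let ⟨b, h2⟩ := (mem_sp (s := a)).1 h2; ⟨v, b, h1, h2⟩⟩⟩

theorem p1_mr (e : Ed (Fin 3)) : Md.p1 D.mir e (loc.m e) (mr e) = 1 := by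
  rw [Md.p1_congr (loc.cm e) (ψ := Md.sE e.k.2) fun a ha b hb c =>
    mr_wall (mem_sp.1 ha) (mem_sp.1 hb) (.inr c), Md.p1_sE, if_pos rfl]

theorem p2_mr (e : Ed (Fin 3)) :
    Md.p2 D.mir e (loc.ω e) (fun a b c => mr e a b * mr (rev e) b c) = -1 := by
  rw [← Md.p2_sE e]
  refine Md.pA_congr fun t ht => Finset.sum_congr rfl fun a ha => Finset.sum_congr rfl fun b hb =>
    Finset.sum_congr rfl fun c hc => if_congr Iff.rfl ?_ rfl
  have q := ((loc.cω e).sup t ht).1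
  have m : ∀ {a}, a ∈ t → a ∈ supE e := fun h => mem_sp.1 (q.2.2 h)
  have c : ∀ {a b}, a ∈ t → b ∈ t → Cl D.Gt a b := fun h h' => or_iff_not_imp_left.2 (q.1 h h')
  exact congrArg₂ (· * ·) (mr_wall (m ha) (m hb) (c ha hb)) (mr_wall' (m hb) (m hc) (c hb hc))

/-- **the model facts** -/
def md : Md wl :=
  wm.md mr mr_smul
    (fun e a b c ha hb hc h1 h2 h3 => by
      rw [mr_eq e h1, mr_eq e h2, mr_eq e h3]
      exact Md.xi_z1 e a ha b hb c hc h1 h3 h2)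
    (fun _ _ _ _ => mr_zero) p1_mr fun e => ⟨-1, by rw [p2_mr]; rfl⟩

@[simp] theorem md_mer : md.mer = mr := rfl

end Crest.Agent.N255.En

end
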