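import Crest.Agent.N255.En.My
import Crest.Agent.N255.En.Md

/-!
# Row 255 (helper18): the Massey labels of the data
-/

set_option autoImplicit false
open Set

noncomputable section

namespace Crest.Agent.N255.En
open Pt Lv

theorem mem_cm {v : FreeGroup (Fin 3)} {a : Da.SS} (h : a ∈ wl.Cm v) : ∃ b, cp v b = a := by
  have key : ∀ u, En (nd a) u → u ≠ v → ∃ k, hs ⟨v, k⟩ u := fun u _ n => by
    obtain ⟨m, hm⟩ := Nat.exists_eq_succ_of_ne_zero (fun q => n (d_eq_zero.1 q) : d u v ≠ 0)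
    obtain ⟨k, hk⟩ := d_down hm
    exact ⟨k, show d u (v * x k) < d u v by omega⟩
  by_cases q : En (nd a) v
  · obtain ⟨u, a | ⟨i, t⟩⟩ := a
    · obtain rfl := en_none.1 q
      exact ⟨.inl a, rfl⟩
    · rcases (en_tgt (e := ⟨u, i, true⟩)).1 q with rfl | rfl
      · exact ⟨.inr ((i, true), t), rfl⟩
      · exact ⟨.inr (op (i, true), t), cp_op _ (i, true) t⟩
  · obtain ⟨k, hk⟩ := key _ (en_v (nd a)) fun r => q (r ▸ en_v (nd a))
    refine absurd ?_ (h k)
    rcases trich ⟨v, k⟩ (nd a) with r | r | r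
    · exact r
    · exact absurd r (not_Hd_rev (en_v _) hk)
    · exact absurd (r ▸ en_tgt.2 (.inl rfl)) q

/-- the sign of a side as a unit -/
def sgu (b : Bool) : ℤˣ := bif b then -1 else 1

theorem sgu_val (b : Bool) : (sgu b : ℤ) = Gd.sg b := by cases b <;> rfl

/-- the labels of the data on the chambers -/
def mcD : Mc md where
  y v i j := Md.ex0 v (Gd.y i j)
  cc _ := Gd.cc
  ε _ t := sgu (t 0) * sgu (t 1) * sgu (t 2)
  cc_eq _ t i k j := by
    show Cs.lc3 i k j * _ = _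
    simp only [Units.val_mul, sgu_val]
    fin_cases i <;> fin_cases k <;> fin_cases j <;> simp [Cs.lc3, -mul_eq_mul_right_iff] <;> ring
  coc v i j a b c ha hb hc ab bc ac := by
    obtain ⟨a, rfl⟩ := mem_cm ha
    obtain ⟨b, rfl⟩ := mem_cm hb
    obtain ⟨c, rfl⟩ := mem_cm hc
    have ab' := (Md.cl_cp Da.D v _ _).1 ab
    have bc' := (Md.cl_cp Da.D v _ _).1 bc
    rw [md_mer, mr_cp ⟨v, i⟩ ab', mr_cp ⟨v, j⟩ bc', Md.ex0_cp, Md.ex0_cp, Md.ex0_cp]
    exact Gd.y_coc i j ab' ((Md.cl_cp Da.D v _ _).1 ac) bc'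
  wall v j i k a b ha hb c := by
    rw [md_mer, mr_wall ha hb c, mr_wall' ha hb c]
    obtain ⟨p, rfl⟩ := Md.mem_wall.1 ha
    obtain ⟨q, rfl⟩ := Md.mem_wall.1 hb
    rw [Md.ex0_cp, Gd.y_wall i k j ((Md.cl_cp Da.D v _ _).1 c)]
    rfl

/-- **the Massey labels of the data** -/
def gmD : Ma.Gm wl md := mcD.gm

end Crest.Agent.N255.En

end
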