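import Crest.Agent.N255.Gs.Sing
import Crest.Agent.N255.Nv.Ctg
import Crest.Agent.N255.Nv.Ne
import Crest.Agent.N255.Lv.Tr

/-!
# Row 255 (helper87): the end structure.  Walls `Wl`, levels `Lv`, analytic input `Tl`, model facts `Md`,
and the end structure `End` of the universal cover (the interface of the producer).
-/

set_option autoImplicit false
open Set
open scoped Pointwise

noncomputable section

namespace Crest.Agent.N255.En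
open Tp Nv Pt Lv

/-- equal or adjacent -/
def Cl {S : Type} (Γ : SimpleGraph S) (a b : S) : Prop := a = b ∨ Γ.Adj a b

theorem Cl.rfl {S : Type} {Γ : SimpleGraph S} (a : S) : Cl Γ a a := .inl (Eq.refl a)

theorem Cl.symm {S : Type} {Γ : SimpleGraph S} {a b : S} (h : Cl Γ a b) : Cl Γ b a :=
  h.imp Eq.symm SimpleGraph.Adj.symm

/-- integer functions of two labels as functions on tuples -/
def t1 (k : Type) [CommRing k] {S : Type} (x : S → S → ℤ) (v : Tu S 1) : k := (x (v 0) (v 1) : ℤ)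

/-- products of two such functions -/
def t2 (k : Type) [CommRing k] {S : Type} (x y : S → S → ℤ) (v : Tu S 2) : k :=
  (x (v 0) (v 1) * y (v 1) (v 2) : ℤ)

theorem td_int (k : Type) [CommRing k] {S A : Type} [AddCommGroup A] [Module k A] {n : ℕ}
    (ψ : Tu S n → A) : td k ψ = td ℤ ψ := by
  funext τ
  rw [td_apply, td_apply]
  refine Finset.sum_congr rfl fun i _ => ?_
  rcases Nat.even_or_odd (i : ℕ) with h | h <;> simp [h.neg_one_pow]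

/-- positively oriented edges -/
def pos {ι : Type} (e : Ed ι) : Prop := e.k.2 = true

theorem pos_rev {ι : Type} (e : Ed ι) : pos (rev e) ↔ ¬pos e := by simp [pos, op]

/-- the walls: wall `T e` and open side `B e` beyond the oriented edge `e` -/
structure Wl (ι S : Type) [DecidableEq ι] [MulAction (FreeGroup ι) S] where
  Γ : SimpleGraph S
  adj_smul : ∀ (f : FreeGroup ι) a b, Γ.Adj (f • a) (f • b) ↔ Γ.Adj a b
  dim : ∀ s : Finset S, Cq (Cl Γ) s → s.card ≤ 4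
  T : Ed ι → Set S
  B : Ed ι → Set S
  T_rev : ∀ e, T (rev e) = T e
  T_smul : ∀ (f : FreeGroup ι) e a, f • a ∈ T (f • e) ↔ a ∈ T e
  B_smul : ∀ (f : FreeGroup ι) e a, f • a ∈ B (f • e) ↔ a ∈ B e
  T_fin : ∀ e, (T e).Finite
  T_ne : ∀ e, (T e).Nonempty
  tri : ∀ e a, a ∈ T e ∨ a ∈ B e ∨ a ∈ B (rev e)
  TB : ∀ e a, a ∈ T e → a ∉ B e
  BB : ∀ e a b, a ∈ B e → b ∈ B (rev e) → ¬Cl Γ a b
  bey : ∀ e e', Bey e e' → T e' ∪ B e' ⊆ B e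
  /-- half links of the simplices of a wall are non-evasive -/
  nev : ∃ m, ∀ e (s : Finset S), s.Nonempty → ↑s ⊆ T e → Cq (Cl Γ) s →
    Nev (Cl Γ) m {b | b ∈ B e ∧ ∀ a ∈ s, Cl Γ a b}

variable {ι S : Type} [DecidableEq ι] [MulAction (FreeGroup ι) S]

namespace Wl
variable (w : Wl ι S)

/-- the labels on the walls of `J` or behind them -/
def Mod (J : Finset (Ed ι)) : Set S := {a | ∀ e ∈ J, a ∉ w.B e}

/-- clique tuples in `A` -/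
abbrev Ct (A : Set S) (n : ℕ) : Set (Tu S n) := CT (Cl w.Γ) A n

end Wl

/-- edges pointing away from each other (this includes `∅`, `{e}`, stars and fronts), or a window -/
def Face (J : Finset (Ed ι)) : Prop :=
  (∀ e ∈ J, ∀ e' ∈ J, e ≠ e' → Bey (rev e) e') ∨ ∃ e, (J : Set (Ed ι)) = {e, rev e}

/-- admissible thresholds `0 < t < t' < 1`; windows `1 - t (rev e) < s e < t e` are not empty -/
def Adm (J : Finset (Ed ι)) (t t' : Ed ι → ℝ) : Prop :=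
  ∀ e ∈ J, 0 < t e ∧ t e < t' e ∧ t' e < 1 ∧ (rev e ∈ J → 1 < t e + t (rev e))


/-- model cocycles: `mer e` is dual to the meridian of the wall `e` seen from behind -/
structure Md (w : Wl ι S) where
  mer : Ed ι → S → S → ℤ
  mer_smul : ∀ (f : FreeGroup ι) e a b, mer (f • e) (f • a) (f • b) = mer e a b
  mer_add : ∀ e a b c, a ∉ w.B e → b ∉ w.B e → c ∉ w.B e → Cl w.Γ a b → Cl w.Γ b c → Cl w.Γ a c →
    mer e a c = mer e a b + mer e b c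
  mer_zero : ∀ e e' a b, Bey (rev e) e' → a ∉ w.B (rev e') → b ∉ w.B (rev e') → mer e a b = 0
  ne : ∀ J, Face J → (w.Mod J).Nonempty
  h0 : ∀ J, Face J → ∀ (A : Type) [AddCommGroup A]
    (ψ : Tu S 0 → A), (∀ v ∈ w.Ct (w.Mod J) 1, td ℤ ψ v = 0) → ∃ a, ∀ v ∈ w.Ct (w.Mod J) 0, ψ v = a
  h1 : ∀ J, Face J → ∀ (A : Type) [AddCommGroup A]
    (ψ : Tu S 1 → A), (∀ v ∈ w.Ct (w.Mod J) 2, td ℤ ψ v = 0) → ∃ (a : Ed ι → A) (η : Tu S 0 → A),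
      ∀ v ∈ w.Ct (w.Mod J) 1, ψ v = ∑ e ∈ J, mer e (v 0) (v 1) • a e + td ℤ η v
  h2 : ∀ e (A : Type) [AddCommGroup A] (ψ : Tu S 2 → A), (∀ v ∈ w.Ct (w.T e) 3, td ℤ ψ v = 0) →
    ∃ (a : A) (η : Tu S 1 → A), ∀ v ∈ w.Ct (w.T e) 2,
      ψ v = (mer e (v 0) (v 1) * mer (rev e) (v 1) (v 2)) • a + td ℤ η v

/-- levels `s e`, radius `r`, labels `lab`, small sets `cv` on the `F`-space `X` -/
structure Lev (w : Wl ι S) (F : Subgroup (FreeGroup ι)) (X : Type) [TopologicalSpace X] [MulAction F X] where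
  s : Ed ι → C(X, ℝ)
  r : C(X, ℝ)
  lab : X → S
  cv : Set (Set X)
  cv_open : ∀ U ∈ cv, IsOpen U
  cv_cover : univ ⊆ ⋃₀ cv
  cv_smul : ∀ f : F, ∀ U ∈ cv, f • U ∈ cv
  s_smul : ∀ (f : F) e x, s (f.1 • e) (f • x) = s e x
  r_smul : ∀ (f : F) x, r (f • x) = r x
  lab_smul : ∀ (f : F) x, lab (f • x) = f.1 • lab x
  s_rev : ∀ e x, s (rev e) x = 1 - s e x
  s_bey : ∀ e e' x, Bey e e' → s e' x + 1 ≤ s e x
  r_lip : ∃ D, ∀ U ∈ cv, ∀ x ∈ U, ∀ y ∈ U, r y ≤ r x + D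
  s_lip : ∃ D, ∀ e, ∀ U ∈ cv, ∀ x ∈ U, ∀ y ∈ U, s e y ≤ s e x + D
  s_slow : ∀ ε : ℝ, 0 < ε → ∃ R, ∀ e, ∀ U ∈ cv, ∀ x ∈ U, ∀ y ∈ U, R < r x → s e y ≤ s e x + ε
  R0 : ℝ
  lab_cl : ∀ U ∈ cv, ∀ x ∈ U, ∀ y ∈ U, R0 < r x → R0 < r y → Cl w.Γ (lab x) (lab y)
  lab_side : ∀ ε : ℝ, 0 < ε → ∃ R, ∀ e x, R < r x → s e x < 1 - ε → lab x ∉ w.B e
  lab_T : ∀ e x, R0 < r x → lab x ∈ w.T e → |s e x| ≤ 2
  cpt : ∀ v (N : ℕ) (R a : ℝ), IsCompact {x | r x ≤ R ∧ ∀ e, Out v N e → s e x ≤ a}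
  cpt_w : ∀ e (R a : ℝ), IsCompact {x | r x ≤ R ∧ |s e x| ≤ a}

variable {w : Wl ι S} {F : Subgroup (FreeGroup ι)} {X : Type} [TopologicalSpace X] [MulAction F X]

namespace Lev
variable (N : Lev w F X)

/-- the far part of the region behind the levels `t` -/
def Reg (J : Finset (Ed ι)) (t : Ed ι → ℝ) (R : ℝ) : Set X := {x | R < N.r x ∧ ∀ e ∈ J, N.s e x < t e}

/-- small simplices in `A` -/
abbrev Sb (A : Set X) : Tp.Sb X := (On A).inf (Sm N.cv)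

/-- far points deep behind one of the mirrors of `σ` -/
def U (ν : S → C(X, ℝ)) (σ : Finset S) (th : S → ℝ) (R : ℝ) : Set X :=
  {x | ∃ a ∈ σ, th a < ν a x} ∩ {x | R < N.r x}

/-- (PA0) -/
def PA0 (k : Type) [CommRing k] (ν : S → C(X, ℝ)) : Prop :=
  ∀ C ε R : ℝ, 0 < ε → ∃ R', ∀ σ : Finset S, σ.Nonempty → Cq (Cl w.Γ) σ → ∀ th : S → ℝ,
    (∀ a ∈ σ, ε ≤ th a ∧ th a ≤ C) → Acy k (N.U ν σ (fun a => th a + ε) R') (N.U ν σ th R)

/-- (PA1) -/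
def PA1 (k : Type) [CommRing k] (ν : S → C(X, ℝ)) : Prop :=
  ∀ C ε R : ℝ, 0 < ε → ∃ R', ∀ e, pos e → ∀ t : ℝ, ε ≤ t → t + ε ≤ 1 → ∀ σ : Finset S, σ.Nonempty →
    Cq (Cl w.Γ) σ → ∀ th : S → ℝ,
    (∀ a ∈ σ, ε ≤ th a ∧ th a ≤ C ∧ a ∉ w.B e ∧ (a ∈ w.T e → t + 2 * ε ≤ th a)) →
    Acy k (N.U ν σ (fun a => th a + ε) R' ∩ {x | N.s e x < t}) (N.U ν σ th R ∩ {x | N.s e x < t + ε})

/-- (L1) in degree zero -/
def L0 (k : Type) [CommRing k] : Prop :=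
  ∀ J t t', Adm J t t' → ((w.Mod J).Nonempty → ∀ R, (N.Reg J t R).Nonempty) ∧ ∀ R, ∃ R',
    ∀ (A : Type) [AddCommGroup A] [Module k A] (φ : Co A 0 X), φ ∈ (N.Sb (N.Reg J t' R)).Z k A 0 →
      ∃ ψ : Tu S 0 → A, (∀ v ∈ w.Ct (w.Mod J) 1, td k ψ v = 0) ∧
        φ - rs N.lab ψ ∈ (On (N.Reg J t R')).van k A 0

/-- (L1) in degrees one and two: far cocycles are pulled back from the model -/
def L1 (k : Type) [CommRing k] : Prop :=
  ∀ J t t', Adm J t t' → ∀ R, ∃ R', ∀ n ≤ 1,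
    ∀ (A : Type) [AddCommGroup A] [Module k A] (φ : Co A (n + 1) X),
      φ ∈ (N.Sb (N.Reg J t' R)).Z k A (n + 1) →
      ∃ ψ : Tu S (n + 1) → A, (∀ v ∈ w.Ct (w.Mod J) (n + 2), td k ψ v = 0) ∧
        φ - rs N.lab ψ ∈ (N.Sb (N.Reg J t R')).Ex k A (n + 1)

/-- (L1'), injectivity: a model cocycle whose pull back is exact far out is exact -/
def L2 (k : Type) [CommRing k] : Prop :=
  ∀ J t t', Adm J t t' → ∀ R, ∀ n ≤ 1,
    ∀ (A : Type) [AddCommGroup A] [Module k A] (ψ : Tu S (n + 1) → A),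
      (∀ v ∈ w.Ct (w.Mod J) (n + 2), td k ψ v = 0) → rs N.lab ψ ∈ (N.Sb (N.Reg J t' R)).Ex k A (n + 1) →
      ∃ η : Tu S n → A, ∀ v ∈ w.Ct (w.Mod J) (n + 1), ψ v = td k η v

/-- (L3) the degree of the labelling on the windows: `z = z₁ + z₂` is a small fundamental chain split along
the window, `σ` the wall chain; `⟨α ∪ β, ∂ σ⟩` is the unit `u`, the same for all oriented edges -/
def DegA {k : Type} [CommRing k] (M : Md w) (O : Ori k 3 X) (u : kˣ) (a : ℝ) : Prop :=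
  ∀ (e : Ed ι) (l l' : ℝ), 0 < l → l < l' → l' < 1 → ∃ R, ∀ R', R ≤ R' → ∀ (K : Set X)
    (z₁ z₂ : Ch k 4 X) (σ c : Ch k 3 X), IsCompact K →
    {x | N.r x ≤ R' ∧ l - a ≤ N.s e x ∧ N.s e x ≤ l' + a} ⊆ K → O.Fund K (z₁ + z₂) →
    z₁ ∈ (N.Sb {x | N.s e x < l'}).ch k 4 → z₂ ∈ (N.Sb {x | l < N.s e x}).ch k 4 → bd k z₁ = σ + c →
    σ ∈ (N.Sb {x | l < N.s e x ∧ N.s e x < l'}).ch k 3 →
    c ∈ (N.Sb {x | x ∉ K ∧ N.s e x < l'}).ch k 3 → bd k σ ∈ (On {x | R' < N.r x}).ch k 2 →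
    ev k (rs N.lab (t2 k (M.mer e) (M.mer (rev e)))) (bd k σ) = u

/-- (L3) -/
abbrev Deg {k : Type} [CommRing k] (M : Md w) (O : Ori k 3 X) (u : kˣ) : Prop := N.DegA M O u 0

end Lev

/-- depth functions `ν a` behind the mirrors: the input of the pro-nerve argument -/
structure Tl (N : Lev w F X) (k : Type) [CommRing k] where
  ν : S → C(X, ℝ)
  adj : ∀ ε : ℝ, 0 < ε → ∃ R, ∀ x a b, R < N.r x → ε < ν a x → ε < ν b x → Cl w.Γ a b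
  deep : ∀ C : ℝ, ∃ R, ∀ x, R < N.r x → C < ν (N.lab x) x
  slow : ∀ C ε : ℝ, 0 < ε → ∃ R, ∀ a, ∀ U ∈ N.cv, ∀ x ∈ U, ∀ y ∈ U, R < N.r x → ν a x ≤ C →
    ν a y ≤ ν a x + ε
  hA1 : ∀ ε : ℝ, 0 < ε → ∃ R, ∀ e x b, pos e → R < N.r x → b ∈ w.B e →
    min 1 (ν b x) ≤ max 0 (N.s e x) + ε
  hA2 : ∀ ε : ℝ, 0 < ε → ∃ R, ∀ e x, pos e → R < N.r x → ε < N.s e x →
    ∃ b ∈ w.B e, min 1 (N.s e x) < ν b x + ε
  ne : ∀ (a : S) (C ε R : ℝ), 0 < ε → ∃ x, R < N.r x ∧ C < ν a x ∧ ∀ b, b ≠ a → ν b x < ε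
  pa0 : N.PA0 k ν
  pa1 : N.PA1 k ν

/-- **the end structure** -/
structure End (w : Wl ι S) (F : Subgroup (FreeGroup ι)) (k : Type) [CommRing k] (X : Type)
    [TopologicalSpace X] [MulAction F X] extends Lev w F X where
  l0 : toLev.L0 k
  l1 : toLev.L1 k
  l2 : toLev.L2 k

end Crest.Agent.N255.En

end
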