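import Crest.Agent.N255.En.Pa0
import Crest.Agent.N255.Lv.TmT

/-!
# Row 255 (helper86, after helper32's `En/Lev`): the level structure for an abstract model
-/

set_option autoImplicit false

noncomputable section

namespace Crest.Agent.N255.En

open Set Pt Fa Lv Uc Gs
open scoped Pointwise

variable {ι S K : Type} [DecidableEq ι] [DecidableEq S] [MulAction (FreeGroup ι) S]
  {M : Ce.Mir S K (FreeGroup ι) (Nd ι) (Ed ι)} {w : Wl ι S} (Z : TM M w)

include Z in
/-- every vertex has a non neighbour -/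
theorem naG [Nonempty ι] : NA M.Γ := fun a => by
  obtain ⟨i⟩ := ‹Nonempty ι›
  let e : Ed ι := ⟨(Z.nd a).v * x (i, true), (i, true)⟩
  let e' : Ed ι := ⟨hd e, (i, true)⟩
  have b : Bey e e' := bey_next rfl fun h => by simpa [e, e'] using congrArg L.k h
  obtain ⟨c, hc⟩ := w.T_ne e'
  have hc' : c ∈ w.B e := w.bey e e' b (.inl hc)
  have ha : a ∈ w.B (rev e) := (Z.mem_B _ _).2 fun u hu => by
    have n : ¬hs e (Z.nd a).v := (bey_iff.1 (bey_next (e := ⟨(Z.nd a).v, (i, true)⟩) (e' := e) rfl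
      fun h => by simpa [e] using congrArg L.k h)).2
    refine hs_rev.2 ?_
    rcases hu with rfl | ⟨j, -, rfl⟩
    · exact n
    · intro k
      have := rev_injective (cross (e' := rev ⟨(Z.nd a).v, (j, true)⟩) k (by simpa using n))
      simpa [e, x_true] using congrArg L.v this
  have n := w.BB e c a hc' ha
  exact ⟨c, fun h => n (.inl h), fun h => n (.inr (Z.Γ_eq ▸ h.symm))⟩

variable [Nonempty S] [Finite ι] [LinearOrder K] [Finite K] {G : Subgroup M.G} {F : Subgroup (FreeGroup ι)}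
  {T : Type} [TopologicalSpace T] [MulAction G T] [ContinuousConstSMul G T] [MulAction F T] {c : ℕ → ℕ}
  {K₀ : Set T} (h : FD 4 G K₀) (E : Av G F T) (s : Slow c)

omit [Finite K] [ContinuousConstSMul G T] in
include h in
theorem exists_R0G : ∃ R0 : ℝ, (∀ x y, R0 < E.rr x → Nr G K₀ x y → Z.lab E x ≠ Z.lab E y → M.Γ.Adj (Z.lab E x) (Z.lab E y)) ∧
    ∀ x, R0 < E.rr x → ∀ e, Z.lab E x ∈ w.T e → |Z.sT E s e x| ≤ 2 := by
  obtain ⟨R1, h1⟩ := Z.lab_adj E h.cpt
  obtain ⟨R2, h2⟩ := Z.lab_T E s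
  exact ⟨max R1 R2, fun x y a => h1 x y ((le_max_left _ _).trans_lt a),
    fun x a => h2 x ((le_max_right _ _).trans_lt a)⟩

/-- **the levels** -/
def levG : Lev w F T where
  s := Z.sT E s
  r := E.rr
  lab := Z.lab E
  cv := FD.cvr G K₀
  cv_open := FD.cvr_open
  cv_cover := h.cvr_cover _
  cv_smul f := by
    rintro _ ⟨g, rfl⟩
    refine ⟨E.φ f * g, Set.ext fun x => ?_⟩
    rw [mem_smul_set_iff_inv_smul_mem, E.act]
    simp [sat, mul_smul]
  s_smul := Z.sT_smul E s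
  r_smul := E.rr_smul
  lab_smul := Z.lab_smul E
  s_rev := Z.sT_rev E s
  s_bey _ _ x k := Z.sT_bey E s k x
  r_lip := by
    obtain ⟨d, k⟩ := E.rr_near h.cpt
    refine ⟨d + d, fun U a x b y e => ?_⟩
    linarith [(abs_le.1 (k x x (nr_cvr a b b) _ (E.v_mem x))).1, (abs_le.1 (k y x (nr_cvr a e b) _ (E.v_mem x))).2]
  s_lip := by
    obtain ⟨d, k⟩ := Z.sT_near E s h.cpt
    refine ⟨d + d, fun e' U a x b y e => ?_⟩
    linarith [(abs_le.1 (k x x (nr_cvr a b b) _ (E.v_mem x) e')).1,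
      (abs_le.1 (k y x (nr_cvr a e b) _ (E.v_mem x) e')).2]
  s_slow ε hε := (E.sv2 (Z.sv_H s) h.cpt hε).imp fun R k e U a x b y n r => by
    have := (abs_le.1 (k x y r (nr_cvr a b n) e)).1
    simp only [TM.sT]
    linarith
  R0 := (exists_R0G Z h E s).choose
  lab_cl U a x b y n r _ := Z.Γ_eq ▸ or_iff_not_imp_left.2 ((exists_R0G Z h E s).choose_spec.1 x y r (nr_cvr a b n))
  lab_side ε hε := (Z.lab_side0 E s hε).imp fun R k e x r => (k x r e).1
  lab_T e x r := (exists_R0G Z h E s).choose_spec.2 x r e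
  cpt v N R a := have := h.gm.t2; Z.out_compact E s R a N v
  cpt_w e R a := by
    have := h.gm.t2
    simpa only [abs_le] using Z.win_compact E s R (-a) a e

@[simp] theorem levG_s : (levG Z h E s).s = Z.sT E s := rfl
@[simp] theorem levG_r : (levG Z h E s).r = E.rr := rfl
@[simp] theorem levG_lab : (levG Z h E s).lab = Z.lab E := rfl
@[simp] theorem levG_cv : (levG Z h E s).cv = FD.cvr G K₀ := rfl

/-- **the depth functions** -/
def tlG [Nonempty ι] [G.FiniteIndex] (H : M.Cham) (k : Type) [Field k] (h1 : (levG Z h E s).PA1 k (E.nu s)) :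
    Tl (levG Z h E s) k where
  ν := E.nu s
  adj _ hε := (E.adj0 s hε).imp fun _ a x b b' r n n' => Z.Γ_eq ▸ or_iff_not_imp_left.2 (a x r b b' n n')
  deep := Z.nu_lab0 E s
  slow C _ hε := (E.mu_slow s h.cpt C hε).imp fun _ a b _ m x n y n' r => a x y r (nr_cvr m n n') {b}
  hA1 _ hε := Z.hA1 E s hε
  hA2 _ hε := Z.hA2 E s hε
  ne a C _ R hε :=
    have := h.gm.pc
    E.ne s (fun a => (naG Z a).imp fun _ b => ⟨b.1.symm, b.2⟩) a C R hε
  pa0 := pa0_of H (naG Z) h s E.P E.o k _ Z.Γ_eq _ (fun _ => rfl) fun _ _ => rfl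
  pa1 := h1

theorem tlG_ν [Nonempty ι] [G.FiniteIndex] (H : M.Cham) (k : Type) [Field k]
    (h1 : (levG Z h E s).PA1 k (E.nu s)) : (tlG Z h E s H k h1).ν = E.nu s := rfl

end Crest.Agent.N255.En
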