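import Crest.Agent.N255.En.Lev
import Crest.Agent.N255.En.LevG
import Crest.Agent.N255.En.Wl

/-!
# Row 255 (helper86): the finite data give an abstract model
-/

set_option autoImplicit false

noncomputable section

namespace Crest.Agent.N255.En

open Set Pt Lv

variable {ι I Tor K : Type} [DecidableEq ι] [Fintype ι] [Fintype I] [Fintype Tor] [DecidableEq I]
  [DecidableEq Tor] {D : Dt ι I Tor K} {w : Wl ι (Pt.St ι I Tor)}

/-- the model of finite data -/
def IsW.tm (hw : IsW D w) : TM D.mir w where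
  Γ_eq := hw.Γ
  ρ_eq _ _ := rfl
  src_eq := rfl
  tgt_eq := rfl
  nd := nd
  nd_smul := nd_smul
  mem_T _ _ := hw.T ▸ mem_supE
  mem_B _ _ := hw.B ▸ mem_A
  sp_tgt _ _ := hw.T ▸ mem_sp
  sp_none v a := by
    refine mem_sp.trans ⟨by rintro ⟨b, rfl⟩; exact en_cp v b, ?_⟩
    obtain ⟨u, a | ⟨i, t⟩⟩ := a
    · intro h
      obtain rfl : v = u := en_none.1 h
      exact ⟨.inl a, rfl⟩
    · rintro (rfl | ⟨j, h, rfl⟩)
      · exact ⟨.inr ((i, true), t), rfl⟩
      · obtain rfl : i = j := Option.some.inj h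
        exact ⟨.inr ((i, false), t), L.ext (og_op u (i, true)) rfl⟩

theorem isW : IsW Da.D wl := ⟨rfl, rfl, rfl⟩

/-- **the model of the data** -/
def tmD : TM Da.D.mir wl := isW.tm

end Crest.Agent.N255.En

end
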