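import Crest.Agent.N255.En.Reg
import Crest.Agent.N255.Nv.Nrv

/-!
# Row 255 (helper88): far cocycles are pulled back from the model (`L0`, `L1`, `L2`)
-/

set_option autoImplicit false
set_option linter.unusedSectionVars false
open Set Filter Topology

noncomputable section

namespace Crest.Agent.N255.En

open Tp Nv Pt Lv Pa

variable {ι S : Type} [DecidableEq ι] [MulAction (FreeGroup ι) S] {w : Wl ι S}
  {F : Subgroup (FreeGroup ι)} {X : Type} [TopologicalSpace X] [MulAction F X] {N : Lev w F X}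
  {k : Type} [CommRing k]

theorem Lev.Reg_le {J : Finset (Ed ι)} {t t' : Ed ι → ℝ} {R R' : ℝ} (h : ∀ e ∈ J, t e ≤ t' e)
    (hR : R ≤ R') : N.Reg J t R' ⊆ N.Reg J t' R :=
  fun _ hx => ⟨hR.trans_lt hx.1, fun e he => (hx.2 e he).trans_le (h e he)⟩

theorem Adm.shrink {J : Finset (Ed ι)} {t t' : Ed ι → ℝ} (h : Adm J t t') : ∃ t₀, Adm J t₀ t := by
  have h1 : ∀ᶠ η in 𝓝[>] (0 : ℝ), ∀ e ∈ J,
      η < t e ∧ (rev e ∈ J → η < (t e + t (rev e) - 1) / 2) := by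
    refine (eventually_all_finset J).2 fun e he => mem_nhdsWithin_of_mem_nhds ?_
    obtain ⟨a, -, -, d⟩ := h e he
    refine Eventually.and (Iio_mem_nhds a) ?_
    by_cases h' : rev e ∈ J
    · exact (show ∀ᶠ η in 𝓝 (0 : ℝ), η < (t e + t (rev e) - 1) / 2 from
        Iio_mem_nhds (by linarith [d h'])).mono fun _ h _ => h
    · exact Eventually.of_forall fun _ h => absurd h h'
  obtain ⟨η, h2, h3⟩ := (h1.and self_mem_nhdsWithin).exists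
  have h4 : 0 < η := h3
  refine ⟨fun e => t e - η, fun e he => ⟨by linarith [(h2 e he).1], by linarith,
    by linarith [(h e he).2.1, (h e he).2.2.1], fun h' => by linarith [(h2 e he).2 h']⟩⟩

namespace Tl

variable (L : Tl N k)
include L

/-- the nerve system of an admissible region -/
theorem exists_sy [Nontrivial k] {J : Finset (Ed ι)} {t t' : Ed ι → ℝ} (h : Adm J t t') (R : ℝ) :
    ∃ Y : Nr.Sy k X S, Y.R = Cl w.Γ ∧ Y.M = w.Mod J ∧ Y.cv = N.cv ∧ Y.l = N.lab ∧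
      Y.Q ⊆ N.Reg J t' R ∧ ∀ r, ∃ R', N.Reg J t R' ⊆ Y.Q ∧ ∀ U ∈ N.cv, ∀ x ∈ U, ∀ y ∈ U,
        x ∈ N.Reg J t R' → y ∈ N.Reg J t R' → y ∈ Y.V (N.lab x) r := by
  obtain ⟨δ, hδ, hδ1, hm, ht⟩ := h.mg
  obtain ⟨R₁, h1⟩ := L.pacU (c := 4) hδ (by linarith)
  obtain ⟨R₂, h2⟩ := L.mem_Vc 4 hδ
  obtain ⟨R₃, h3⟩ := L.small_deep 4
  obtain ⟨R₄, h4⟩ := L.adj 1 one_pos
  obtain ⟨R₀, a0, a1, a2, a3, a4, a5⟩ :
      ∃ R₀, R ≤ R₀ ∧ R₁ ≤ R₀ ∧ R₂ ≤ R₀ ∧ R₃ ≤ R₀ ∧ R₄ ≤ R₀ ∧ N.R0 ≤ R₀ :=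
    ⟨max (max R (max R₁ R₂)) (max R₃ (max R₄ N.R0)), by simp, by simp, by simp, by simp, by simp,
      by simp⟩
  have hP := h1 R₀ a1 (P := {s : Finset S // s.Nonempty ∧ Cq (Cl w.Γ) s ∧ (s : Set S) ⊆ w.Mod J})
    (fun _ => J) (fun _ => t) (fun s => s.1) (fun _ => hm) fun s => s.2
  have far : ∀ {n x}, x ∈ N.Rn δ R₀ J t n → R₀ < N.r x := fun {n x} hx =>
    (le_add_of_nonneg_right (Nat.cast_nonneg n)).trans_lt hx.1
  have e4 := (FarD.eps_facts hδ 0).2.2.2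
  refine ⟨⟨Cl w.Γ, w.Mod J, N.cv, L.Vc δ 4 R₀ J t, N.Rn δ R₀ J t 0, N.lab, Cl.rfl,
    fun _ _ => Cl.symm, N.cv_open, N.cv_cover,
    fun a => (L.oVc hδ 4 R₀ (fun _ => J) (fun _ => t) id).anti a, fun a ha n => ?_, fun n => ?_,
    fun a _ => inter_subset_right, fun x hx => (h2 R₀ a2 J t hm 0 x hx).1,
    fun U hU x hx y hy hx' hy' => N.lab_cl U hU x hx y hy (a5.trans_lt (far hx'))
      (a5.trans_lt (far hy')), fun a _ U hU x hx y hy hx' hy' => ?_⟩, rfl, rfl, rfl, rfl,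
    Lev.Reg_le (fun e he => by linarith [ht e he]) (by simpa using a0), fun r => ⟨R₀ + r, ?_, ?_⟩⟩
  · simpa using hP.ne ⟨{a}, by simp, by simpa [Cq] using Cl.rfl a, by simpa using ha⟩ n
  · obtain ⟨n', hn, h5⟩ := hP.ac n
    exact ⟨n', hn, fun s s1 s2 s3 => h5 ⟨s, s1, s3, s2⟩⟩
  · have h5 := h3 U hU y hy x hx (a3.trans_lt (far hy')) (a3.trans_lt (far hx'.2))
    have h6 : 4 - δ * u 0 < L.ν a x := hx'.1
    exact h4 x a _ (a4.trans_lt (far hx'.2)) (by linarith) (by linarith)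
  · exact Lev.Reg_le (fun e _ => by linarith [(FarD.eps_facts hδ 0).2.2.1]) (by simp)
  · intro U hU x hx y hy hx' hy'
    have e3 := (FarD.eps_facts hδ r).2.2.1
    have hr : (0 : ℝ) ≤ r := Nat.cast_nonneg r
    have h5 := h3 U hU x hx y hy (by linarith [hx'.1]) (by linarith [hy'.1])
    exact ⟨show 4 - δ * u r < L.ν (N.lab x) y by linarith,
      Lev.Reg_le (fun e _ => by linarith) le_rfl hy'⟩

/-- far cocycles of any bounded degree are pulled back -/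
theorem sur [Nontrivial k] {J : Finset (Ed ι)} {t t' : Ed ι → ℝ} (h : Adm J t t') (R : ℝ) (m : ℕ) :
    ∃ R', ∀ n ≤ m, ∀ (A : Type) [AddCommGroup A] [Module k A] (φ : Co A n X),
      φ ∈ (N.Sb (N.Reg J t' R)).Z k A n → ∃ ψ : Tu S n → A,
        (∀ v ∈ w.Ct (w.Mod J) (n + 1), td k ψ v = 0) ∧
        φ - rs N.lab ψ ∈ (N.Sb (N.Reg J t R')).Ex k A n := by
  obtain ⟨Y, e1, e2, e3, e4, hQ, hV⟩ := L.exists_sy h R
  obtain ⟨r, hr⟩ := Y.sur m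
  obtain ⟨R', h1, h2⟩ := hV r
  refine ⟨R', fun n hn A _ _ φ hφ => ?_⟩
  have := hr _ h1 (by rw [e3, e4]; exact h2) n hn A φ
    (Sb.Z_mono (P := Y.Sb Y.Q) (Q := N.Sb (N.Reg J t' R))
      (fun _ _ hσ => ⟨hσ.1.trans hQ, e3 ▸ hσ.2⟩) hφ)
  simpa only [Nr.Sy.C, Nr.Sy.Sb, e1, e2, e3, e4] using this

/-- a model cocycle whose pull back is exact is exact -/
theorem inj [Nontrivial k] {J : Finset (Ed ι)} {t t' : Ed ι → ℝ} (h : Adm J t t') (R : ℝ) {n : ℕ}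
    {A : Type} [AddCommGroup A] [Module k A] (ψ : Tu S (n + 1) → A)
    (hψ : ∀ v ∈ w.Ct (w.Mod J) (n + 2), td k ψ v = 0)
    (hx : rs N.lab ψ ∈ (N.Sb (N.Reg J t' R)).Ex k A (n + 1)) :
    ∃ η : Tu S n → A, ∀ v ∈ w.Ct (w.Mod J) (n + 1), ψ v = td k η v := by
  obtain ⟨Y, e1, e2, e3, e4, hQ, -⟩ := L.exists_sy h R
  have := Y.inj (ψ := ψ) (by simpa only [Nr.Sy.C, e1, e2] using hψ)
    (Sb.Ex_mono (P := Y.Sb Y.Q) (Q := N.Sb (N.Reg J t' R))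
      (fun _ _ hσ => ⟨hσ.1.trans hQ, e3 ▸ hσ.2⟩) (e4 ▸ hx))
  simpa only [Nr.Sy.C, e1, e2] using this

theorem reg_nonempty [Nontrivial k] {J : Finset (Ed ι)} {t t' : Ed ι → ℝ} (h : Adm J t t')
    (hM : (w.Mod J).Nonempty) (R : ℝ) : (N.Reg J t R).Nonempty := by
  obtain ⟨t₀, h0⟩ := h.shrink
  obtain ⟨Y, -, e2, -, -, hQ, -⟩ := L.exists_sy h0 R
  obtain ⟨a, ha⟩ := hM
  rw [← e2] at ha
  exact (Y.ne a ha 0).mono ((Y.VQ a ha).trans hQ)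

theorem l0 [Nontrivial k] : N.L0 k := fun J t t' h => ⟨L.reg_nonempty h, fun R => by
  obtain ⟨R', h1⟩ := L.sur h R 0
  refine ⟨R', fun A _ _ φ hφ => (h1 0 le_rfl A φ hφ).imp fun ψ hψ => ⟨hψ.1, fun σ hσ => ?_⟩⟩
  obtain ⟨U, hU, hx⟩ := N.cv_cover (mem_univ (σ (stdSimplex.vertex 0)))
  exact hψ.2 σ ⟨hσ, U, hU, by rw [Tp.range_zero]; simpa using hx⟩⟩

theorem l1 [Nontrivial k] : N.L1 k := fun _ _ _ h R => by
  obtain ⟨R', h1⟩ := L.sur h R 2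
  exact ⟨R', fun n hn A _ _ φ hφ => h1 (n + 1) (by omega) A φ hφ⟩

theorem l2 [Nontrivial k] : N.L2 k := fun _ _ _ h R _ _ _ _ _ ψ hψ hx => L.inj h R ψ hψ hx

/-- **the end structure** -/
def toEnd [Nontrivial k] : End w F k X := ⟨N, L.l0, L.l1, L.l2⟩

end Tl

end Crest.Agent.N255.En

end
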