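import Crest.Agent.N255.Fa.Pa1
import Crest.Agent.N255.En.Lev
import Crest.Agent.N255.Lv.TmT

/-!
# Row 255 (helper44): the field `pa1` of `Tl`, for any mirror model
-/

set_option autoImplicit false
set_option linter.unusedSectionVars false
open Set

noncomputable section

namespace Crest.Agent.N255.En

open Gs Tp Uc Ce Ra Lv Pt Fa

section gen

variable {S K F0 Nd' Ed' : Type} [DecidableEq S] [Group F0] [MulAction F0 Nd'] [MulAction F0 Ed']
  [LinearOrder K] [Finite K] {M : Mir S K F0 Nd' Ed'} {G' : Subgroup M.G} [G'.FiniteIndex]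
  {T : Type} [TopologicalSpace T] [MulAction G' T] [ContinuousConstSMul G' T] {K₀ : Set T}

/-- **(PA1)** from (PA0) for any slowly varying level `Hh` which agrees with `mu` below `1` -/
theorem pa1_of (hC : M.Cham) (h : FD 4 G' K₀) (P : Pu G' T) (o : Vt M) (k : Type) [Field k] :
    ∃ c1 : ℕ → ℕ, Monotone c1 ∧ ∀ (c : ℕ → ℕ) (s : Slow c), (∀ n, c1 n ≤ c n) →
      ∀ (ι : Type) [DecidableEq ι] [MulAction (FreeGroup ι) S] (w : Wl ι S)
        (F : Subgroup (FreeGroup ι)) [MulAction F T] (N : Lev w F T) (ν : S → C(T, ℝ))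
        (Hh : Ed ι → Vt M → ℝ), w.Γ = M.Γ → SV Hh →
        (∀ e x (a : ℝ), En.pos e → 0 < rad M x → 0 < a → a ≤ 1 →
          (Hh e x < a ↔ mu M s (w.B e) x < a)) →
        (∀ a x, ν a x = P.av (fun g : G' => nu M s a (g.1.1 • o)) x) →
        (∀ x, N.r x = P.av (fun g : G' => (rad M (g.1.1 • o) : ℝ)) x) →
        (∀ e x, N.s e x = P.av (fun g : G' => Hh e (g.1.1 • o)) x) →
        N.PA0 k ν → N.PA1 k ν := by
  have O := orb M G' o
  have := gm_countable h.gm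
  have := h.gm.t2
  obtain ⟨ch⟩ := h.gm.chart
  have q := (qd_univ hC).res G'
  obtain ⟨L⟩ := nonempty_lab (M.ug.res G').fr
  obtain ⟨g0⟩ := exists_mp (cell (M.ug.res G').fr k L) (h.sing k)
  obtain ⟨f0⟩ := exists_mp (h.sing k) (cell (M.ug.res G').fr k L)
  obtain ⟨H0⟩ := exists_ht (g0.comp f0) (Mp.id _)
  obtain ⟨c0, mc, H⟩ := O.acy h.gm P k (q.nd g0) (no_c0 H0 (q.h0 k))
  obtain ⟨e0, he0⟩ := O.lab P
  refine ⟨fun n => c0 (2 * n), fun _ _ h => mc (by omega),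
    fun c s hc ι _ _ w F _ N ν Hh hΓ hsl hlt hν hr hs pa0 C ε R hε => ?_⟩
  have hq : 0 < ε / 4 := by positivity
  -- labels of a far point are far
  have far : ∀ (x : T) (R : ℕ), ((R + e0 : ℕ) : ℝ) < N.r x → ∀ u ∈ P.lab x,
      R ≤ rad M (u.1.1 • o) := fun x R hx u hu => by
    obtain ⟨g, hg, h1⟩ := P.exists_lt (hr x ▸ hx)
    have h2 := rad_lip (u.1.1 • o) (g.1.1 • o)
    have h3 : dl M (u.1.1 • o) (g.1.1 • o) ≤ e0 := he0 x u hu g hg
    have h4 := Nat.cast_lt.1 h1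
    omega
  -- membership in the target
  have tgt : ∀ e, En.pos e → ∀ t : ℝ, ε ≤ t → t + ε ≤ 1 → ∀ (σ : Finset S)
      (th : S → ℝ), ∀ a ∈ σ, ∀ y : T, (∀ g ∈ P.lab y, ⌈R⌉₊ + 1 ≤ rad M (g.1.1 • o) ∧
        mu M s (w.B e) (g.1.1 • o) < t + ε ∧ th a < nu M s a (g.1.1 • o)) →
      y ∈ N.U ν σ th R ∩ {x | N.s e x < t + ε} := fun e he t h1 h2 σ th a ha y hy => by
    refine ⟨⟨⟨a, ha, ?_⟩, ?_⟩, ?_⟩
    · rw [hν]; exact P.lt_av fun g hg => (hy g hg).2.2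
    · show R < N.r y
      rw [hr]
      exact P.lt_av fun g hg => (Nat.le_ceil R).trans_lt (Nat.cast_lt.2 (hy g hg).1)
    · show N.s e y < t + ε
      rw [hs]
      exact P.av_lt fun g hg => (hlt e _ _ he (by have := (hy g hg).1; omega) (by linarith) h2).2
        (hy g hg).2.1
  obtain ⟨R1, h1⟩ := image_fv M s (max C 1) hq (⌈R⌉₊ + 1) (c0 0)
  obtain ⟨R2, h2⟩ := pa0 (C + ε / 2) (ε / 2) ((R1 + e0 : ℕ) : ℝ) (by positivity)
  obtain ⟨R3, h3⟩ := track M s (max C 1) hq (⌈R⌉₊ + 1)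
  obtain ⟨R4, h4⟩ := mu_slow M s (max C 1) hq (c0 0)
  obtain ⟨R5, h5⟩ := hsl _ hq e0
  have cm : C ≤ max C 1 := le_max_left _ _
  have cm' : (1 : ℝ) ≤ max C 1 := le_max_right _ _
  refine ⟨max (max R2 R) ((R3 + R4 + R5 + ⌈R⌉₊ + 1 + c0 0 + e0 : ℕ) : ℝ),
    fun e he t t1 t2 σ ne cl th hth => ?_⟩
  refine H (fv (w.B e)) (dl_fv _) _ (N.U ν σ (fun a => th a + ε / 2 + ε / 2) R2)
    (N.U ν σ (fun a => th a + ε / 2) ((R1 + e0 : ℕ) : ℝ)) _ ?_ ?_ ?_
    (h2 σ ne cl _ fun a ha => ⟨by linarith [(hth a ha).1], by linarith [(hth a ha).2.1]⟩) ?_ ?_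
  · refine (IsOpen.inter ?_ (isOpen_lt continuous_const N.r.continuous)).inter
      (isOpen_lt (N.s e).continuous continuous_const)
    rw [show {x | ∃ a ∈ σ, th a + ε < ν a x} = ⋃ a ∈ σ, {x | th a + ε < ν a x} by ext; simp]
    exact isOpen_biUnion fun a _ => isOpen_lt continuous_const (ν a).continuous
  · rintro x ⟨⟨⟨a, ha, b1⟩, b2⟩, -⟩
    exact ⟨⟨a, ha, show th a + ε / 2 + ε / 2 < ν a x by linarith⟩,
      show R2 < N.r x from (max_lt_iff.1 (max_lt_iff.1 b2).1).1⟩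
  · rintro x ⟨⟨⟨a, ha, b1⟩, b2⟩, b3⟩
    exact ⟨⟨⟨a, ha, show th a < ν a x by linarith⟩,
      show R < N.r x from (max_lt_iff.1 (max_lt_iff.1 b2).1).2⟩,
      show N.s e x < t + ε by linarith [show N.s e x < t from b3]⟩
  · rintro x ⟨⟨a, ha, b1⟩, b2⟩
    obtain ⟨u, hu, b3⟩ := P.exists_lt (hν a x ▸ b1)
    refine ⟨u, hu, fun y hy => tgt e he t t1 t2 σ th a ha y fun g hg => ?_⟩
    obtain ⟨a1, a2, a3, -⟩ := hth a ha
    obtain ⟨d1, d2, d3⟩ := h1 _ _ (w.B e) a (far x R1 b2 u hu) a3 (by linarith) (hy g hg)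
    refine ⟨d1, by linarith, by_contra fun b => ?_⟩
    have := d3 (by linarith)
    linarith
  · rintro x ⟨⟨⟨a, ha, b1⟩, b2⟩, b3⟩
    obtain ⟨u, hu, b4⟩ := P.exists_lt (hν a x ▸ b1)
    obtain ⟨u', hu', b5⟩ := P.exists_gt ((hs e x).symm.trans_lt b3)
    have b6 := far x _ (max_lt_iff.1 b2).2 u hu
    have b7 := (abs_le.1 (h5 _ _ (by omega) (he0 x u hu u' hu') e)).2
    have b8 : mu M s (w.B e) (u.1.1 • o) < t + ε / 4 :=
      (hlt e _ _ he (by omega) (by linarith) (by linarith)).1 (by linarith)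
    obtain ⟨a1, a2, a3, a4⟩ := hth a ha
    refine ⟨u, hu, fun y hy => tgt e he t t1 t2 σ th a ha y fun g hg => ?_⟩
    have b9 : dl M (u.1.1 • o) (g.1.1 • o) ≤
        c0 (dl M (u.1.1 • o) (fv (w.B e) (u.1.1 • o))) := hy g hg
    rcases w.tri e a with c1 | c1 | c1
    · obtain ⟨d1, d2, d3⟩ := h3 _ _ (w.B e) (by omega) (by linarith)
        (b9.trans ((mc (dl_fv_self _ _)).trans (hc _)))
      refine ⟨d1, by linarith, by_contra fun b => ?_⟩
      have := d3 a (by linarith [a4 c1]) (by linarith)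
      linarith
    · exact absurd c1 a3
    · have d0 : ds M (w.B e) (u.1.1 • o) = 0 := ds_eq_zero.2 fun b hb hb' => w.BB e b a hb c1
        (or_iff_not_imp_left.2 fun e' => hΓ ▸ Init_clique _ hb'
          ((nu_pos s).1 (by linarith : 0 < nu M s a (u.1.1 • o))) e')
      rw [fv_eq (ds_eq_zero.1 d0), dl_self'] at b9
      have d1 := rad_lip (g.1.1 • o) (u.1.1 • o)
      rw [dl_comm'] at d1
      have d2 := (h4 _ _ (by omega) b9 (w.B e)).1 (by linarith)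
      refine ⟨by omega, by linarith, by_contra fun b => ?_⟩
      have := (h4 _ _ (by omega) b9 {a}).2 (by rw [← nu_eq]; linarith)
      rw [← nu_eq] at this
      linarith


end gen

theorem Cut_lt {ι P : Type} [DecidableEq ι] (C : Cut ι P) {e : Ed ι} {p : P} {m a : ℝ}
    (h : C.h e p = min 1 m) (h0 : 0 < a) (h1 : a ≤ 1) : C.H e p < a ↔ m < a := by
  rw [C.H_lt_iff h0 h1, h, min_lt_iff, or_iff_right h1.not_gt]

section dt

variable {ι I Tor K : Type} [DecidableEq ι] [Fintype ι] [Fintype I] [Fintype Tor] [DecidableEq I]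
  [DecidableEq Tor] [Nonempty I] [LinearOrder K] [Finite K] {D : Dt ι I Tor K}
  {G : Subgroup D.mir.G} {F : Subgroup (FreeGroup ι)} {T : Type} [TopologicalSpace T]
  [MulAction G T] [ContinuousConstSMul G T] [MulAction F T] {K₀ : Set T}
  {w : Wl ι (St ι I Tor)} (hw : IsW D w) (h : FD 4 G K₀) (E : Av G F T)

/-- **(PA1)** for the levels of `D` -/
theorem pa1_lev [Nonempty ι] [G.FiniteIndex] (H : D.mir.Cham) (k : Type) [Field k] :
    ∃ c1 : ℕ → ℕ, Monotone c1 ∧ ∀ (c : ℕ → ℕ) (s : Slow c), (∀ n, c1 n ≤ c n) →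
      (lev hw h E s).PA1 k (E.nu s) := by
  obtain ⟨c1, h1, h2⟩ := pa1_of H h E.P E.o k
  exact ⟨c1, h1, fun c s hc => h2 c s hc ι w F _ _ (cut D s).H hw.Γ (Av.sv_H s)
    (fun e x a he hx h0 h1 => Cut_lt _ (hw.B ▸ h_true D s he hx) h0 h1) (fun _ _ => rfl)
    (fun _ => rfl) (fun _ _ => rfl)
    (pa0_of H (na D) h s E.P E.o k _ hw.Γ _ (fun _ => rfl) fun _ _ => rfl)⟩

/-- **the depth functions exist** -/
theorem exists_tl [Nonempty ι] [G.FiniteIndex] (H : D.mir.Cham) (k : Type) [Field k] :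
    ∃ (c : ℕ → ℕ) (s : Slow c), Nonempty (Tl (lev hw h E s) k) := by
  obtain ⟨c, -, h1⟩ := pa1_lev hw h E H k
  obtain ⟨s⟩ := exists_slow c
  exact ⟨c, s, ⟨tl hw h E s H k (h1 c s fun _ => le_rfl)⟩⟩

end dt

section tm

variable {ι S K : Type} [DecidableEq ι] [Finite ι] [DecidableEq S] [Nonempty S]
  [MulAction (FreeGroup ι) S] [LinearOrder K] [Finite K]
  {M : Mir S K (FreeGroup ι) (Nd ι) (Ed ι)} {w : Wl ι S} (Z : TM M w)
  {G : Subgroup M.G} [G.FiniteIndex] {F : Subgroup (FreeGroup ι)} {T : Type} [TopologicalSpace T]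
  [MulAction G T] [ContinuousConstSMul G T] [MulAction F T] {K₀ : Set T}

/-- **(PA1)** for the levels of an abstract model -/
theorem pa1_tm (H : M.Cham) (h : FD 4 G K₀) (E : Av G F T) (k : Type) [Field k] :
    ∃ c1 : ℕ → ℕ, Monotone c1 ∧ ∀ (c : ℕ → ℕ) (s : Slow c), (∀ n, c1 n ≤ c n) →
      ∀ N : Lev w F T, N.r = E.rr → N.s = Z.sT E s → N.PA0 k (E.nu s) → N.PA1 k (E.nu s) := by
  obtain ⟨c1, h1, h2⟩ := pa1_of H h E.P E.o k
  exact ⟨c1, h1, fun c s hc N hr hs => h2 c s hc ι w F N _ (Z.cut s).H Z.Γ_eq (Z.sv_H s)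
    (fun e x a he hx h0 h1 => Cut_lt _ (Z.h_true s he hx) h0 h1) (fun _ _ => rfl)
    (fun _ => hr ▸ rfl) fun _ _ => hs ▸ rfl⟩

end tm

end Crest.Agent.N255.En

end
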