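import Crest.Agent.N255.En.Pa0

/-!
# Row 255 (helper89): the field `ne` of `Tl`; every label has a non adjacent partner
-/

set_option autoImplicit false

noncomputable section

namespace Crest.Agent.N255.En

open Set Ce Gs Tp Uc Lv Fa Nv Pt Ra

section wl

variable {ι S : Type} [DecidableEq ι] [MulAction (FreeGroup ι) S] (w : Wl ι S)

/-- the straight continuation of an edge -/
def nxt (e : Ed ι) : Ed ι := ⟨hd e, e.k⟩

theorem bey_nxt (e : Ed ι) : Bey e (nxt e) :=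
  bey_next rfl fun h => op_ne e.k (congrArg L.k h).symm

theorem exists_bey (e : Ed ι) : ∃ e', Bey e' e := by
  have := (bey_nxt (rev e)).symm
  rw [rev_rev] at this
  exact ⟨_, this⟩

theorem Wl.B_ne (e : Ed ι) : (w.B e).Nonempty :=
  (w.T_ne (nxt e)).mono (subset_union_left.trans (w.bey _ _ (bey_nxt e)))

theorem Wl.exists_B (e : Ed ι) (a : S) : ∃ e', a ∈ w.B e' := by
  rcases w.tri e a with h | h | h
  · obtain ⟨e', he⟩ := exists_bey e
    exact ⟨e', w.bey _ _ he (.inl h)⟩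
  exacts [⟨_, h⟩, ⟨_, h⟩]

theorem Wl.na [Nonempty ι] : NA w.Γ := fun a => by
  obtain ⟨e, he⟩ := w.exists_B ⟨1, (Classical.arbitrary ι, true)⟩ a
  obtain ⟨b, hb⟩ := w.B_ne (rev e)
  have := w.BB e a b he hb
  exact ⟨b, fun h => this (.inl h.symm), fun h => this (.inr h)⟩

end wl

variable {S K F Nd Ed : Type} [DecidableEq S] [Group F] [MulAction F Nd] [MulAction F Ed]
  [LinearOrder K] [Finite K] {M : Mir S K F Nd Ed} {c : ℕ → ℕ} {G' : Subgroup M.G} [G'.FiniteIndex]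
  {T : Type} [TopologicalSpace T] [MulAction G' T] [ContinuousConstSMul G' T] {K₀ : Set T}

/-- points of the manifold all of whose labels are close to a given vertex -/
theorem exists_near (h : FD 4 G' K₀) (P : Pu G' T) (o : Vt M) :
    ∃ D, ∀ u : Vt M, ∃ x : T, ∀ g ∈ P.lab x, dl M u (g.1.1 • o) ≤ D := by
  obtain ⟨D, hD⟩ := orb_dense G' o
  obtain ⟨D', hD'⟩ := lab_dl P o h
  refine ⟨D + D', fun u => ?_⟩
  obtain ⟨g, hg⟩ := hD u
  obtain ⟨x, g', rfl, hx⟩ := Op_nonempty h (singleton_nonempty g)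
  refine ⟨x, fun g'' h'' => (dl_tri' u (g'.1.1 • o) _).trans (add_le_add ?_
    (hD' x _ _ (.inl (interior_subset hx)) (.inr h'')))⟩
  rwa [dl_comm']

/-- **(NE)** -/
theorem ne_of (hN : NA M.Γ) (h : FD 4 G' K₀) (s : Slow c) (P : Pu G' T) (o : Vt M)
    (r : T → ℝ) (ν : S → C(T, ℝ)) (hr : ∀ x, r x = P.av (fun g => (rad M (g.1.1 • o) : ℝ)) x)
    (hν : ∀ a x, ν a x = P.av (fun g => nu M s a (g.1.1 • o)) x) (a : S) (C ε R : ℝ) (hε : 0 < ε) :
    ∃ x, R < r x ∧ C < ν a x ∧ ∀ b, b ≠ a → ν b x < ε := by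
  obtain ⟨D, hD⟩ := exists_near h P o
  obtain ⟨R1, h1⟩ := mu_slow M s (max C 0) (half_pos hε) D
  obtain ⟨w, w1, w2, w3⟩ := exists_nu s hN o.2 a (C + ε) (R1 + ⌈R⌉₊ + D + 1)
  obtain ⟨x, hx⟩ := hD (w, o.2)
  refine ⟨x, ?_, ?_, fun b hb => ?_⟩
  · rw [hr]
    refine P.lt_av fun g hg => (Nat.le_ceil R).trans_lt ?_
    have := rad_lip (g.1.1 • o) (w, o.2)
    have := hx g hg
    rw [dl_comm'] at this
    exact_mod_cast (by omega)
  · rw [hν]
    refine P.lt_av fun g hg => lt_of_not_ge fun k => ?_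
    have := (h1 _ _ (by omega) (hx g hg) {a}).2 (k.trans (le_max_left _ _))
    rw [← nu_eq] at this
    linarith
  · rw [hν]
    have z : nu M s b (w, o.2) = 0 :=
      (nu_nn s _ _).antisymm' (le_of_not_gt fun k => hb (w1 ((nu_pos s).1 k)))
    refine P.av_lt fun g hg => ?_
    have := (h1 _ _ (by omega) (hx g hg) {b}).1 (by rw [← nu_eq, z]; exact le_max_right _ _)
    rw [← nu_eq, z] at this
    linarith

end Crest.Agent.N255.En

end
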