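import Crest.Agent.N255.En.Top
import Crest.Agent.N255.En.Md
import Crest.Agent.N255.Dg.Num

/-!
# Row 255 (helper36): the model number
-/

set_option autoImplicit false
open Set

noncomputable section

namespace Crest.Agent.N255.En
open Tp Nv Pt Lv Dg

variable {ι S K F : Type} [DecidableEq ι] [MulAction (FreeGroup ι) S] [DecidableEq S] [LinearOrder K]
  [Group F] [MulAction F (Nd ι)] [MulAction F (Ed ι)] {w : Wl ι S} {M : Ce.Mir S K F (Nd ι) (Ed ι)}

/-- **the model number**, for any model, from four facts on the walls -/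
theorem dg_om (L : Ch.Loc M) (H : M.Cham) (hH : H.or = L.or) (md : Md w) (k : Type) [CommRing k] (e : Ed ι)
    (hT : w.T e = M.sp (M.tgt e)) (h1 : ∀ a ∈ M.sp (M.src e), a ∉ w.B e)
    (h2 : ∀ a ∈ M.sp (M.src (L.op e)), a ∉ w.B (rev e)) :
    dg H (md.om k e) = -(N255.Md.p2 M e (L.ω e) fun a b c => md.mer e a b * md.mer (rev e) b c : ℤ) :=
  dg_int L H hH e _ (fun _ h => hT ▸ by_contra fun c => h (if_neg c)) (fun _ h => if_pos (hT ▸ h)) h1
    (fun a ha => ((w.tri e a).imp (fun t => by rwa [hT] at t) fun t => t.resolve_right (h2 a ha)))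
    (fun _ h => if_pos h) fun _ h => by_contra fun c => h (if_neg c)

theorem Wm.dg_om {L : Ch.Loc M} (h : Wm w L) (H : M.Cham) (hH : H.or = L.or) (md : Md w) (k : Type)
    [CommRing k] (e : Ed ι) :
    dg H (md.om k e) = -(N255.Md.p2 M e (L.ω e) fun a b c => md.mer e a b * md.mer (rev e) b c : ℤ) :=
  En.dg_om L H hH md k e (h.wall e).symm
    (fun a ha => (h.B e a).2 ⟨e.v, not_hs_v e, by rwa [h.src] at ha⟩)
    fun a ha => (h.B _ a).2 ⟨(rev e).v, not_hs_v _, by rwa [h.src, h.op] at ha⟩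

/-- **the model number of the data**: `u = -1` -/
theorem dg_md (k : Type) [CommRing k] (e : Ed (Fin 3)) :
    dg Da.cham (md.om k e) = -((-1 : kˣ) : k) := by
  rw [wm.dg_om Da.cham rfl, md_mer, p2_mr]; simp

end Crest.Agent.N255.En

end
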