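import Crest.Agent.N255.Vc.En

/-!
# Row 255 (helper87): small simplices outside a compact set are far or deep
-/

set_option autoImplicit false
open Set

noncomputable section

namespace Crest.Agent.N255.En
open Tp Nv Pt Lv Ma Wn Vc

theorem res_Cc_off {X k A : Type} [TopologicalSpace X] [CommRing k] [AddCommGroup A] [Module k A] {n : ℕ}
    {P : Tp.Sb X} {B : Set X} (hB : IsCompact B) {u : Co A n X} (h : u ∈ (P.inf (On Bᶜ)).van k A n) :
    P.res u ∈ Cc k univ A n := ⟨B, hB, subset_univ _, Sb.res_mem h⟩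

namespace Lev

section gen
variable {ι S : Type} [DecidableEq ι] [MulAction (FreeGroup ι) S] {w : Wl ι S}
  {F : Subgroup (FreeGroup ι)} {X : Type} [TopologicalSpace X] [MulAction F X] (N : Lev w F X)
  {ε R R₀ a b : ℝ} {B : Set X}

/-- compact sets have bounded radius -/
theorem exists_rad (hB : IsCompact B) : ∃ R₁, ∀ R, R₁ ≤ R → ∀ x ∈ B, N.r x ≤ R :=
  let ⟨R₁, h⟩ := hB.bddAbove_image N.r.continuous.continuousOn
  ⟨R₁, fun _ hR x hx => (h ⟨x, hx, rfl⟩).trans hR⟩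

theorem hi_off (h : ∀ x ∈ B, N.r x ≤ R) : hi N.r R ⊆ Bᶜ := fun x hx c => (h x c).not_gt hx

theorem fw_off (h : ∀ x ∈ B, N.r x ≤ R) (e : Ed ι) : fw (N.s e) N.r a b R ⊆ Bᶜ :=
  fun _ hx => N.hi_off h hx.1

/-- off a compact set a window is far -/
theorem exists_off_win (e : Ed ι) (a b R : ℝ) :
    ∃ B, IsCompact B ∧ win (N.s e) a b \ B ⊆ fw (N.s e) N.r a b R :=
  ⟨_, N.cpt_w e R (max |a| |b|), fun x ⟨h1, h2⟩ => ⟨not_le.1 fun c => h2 ⟨c, abs_le.2
    ⟨by linarith [show a < N.s e x from h1.1, neg_abs_le a, le_max_left |a| |b|],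
      by linarith [show N.s e x < b from h1.2, le_abs_self b, le_max_right |a| |b|]⟩⟩, h1⟩⟩

/-- off a compact set the small simplices of a window are labelled by the wall -/
theorem exists_off_Lb (hB : N.Big ε R) (h0 : R₀ ≤ R) (e : Ed ι) :
    ∃ B, IsCompact B ∧ ∀ B', B ⊆ B' → ∀ a b, ε ≤ a → b ≤ 1 - ε →
      ((N.Sb (win (N.s e) a b)).inf (On B'ᶜ)).Le (N.Lb R₀ (w.T e)) := by
  obtain ⟨B, h1, h2⟩ := N.exists_off_win e ε (1 - ε) R
  exact ⟨B, h1, fun B' h a b ha hb n σ hσ => hB.fw h0 le_rfl le_rfl n ⟨fun x hx =>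
    h2 ⟨⟨ha.trans_lt (hσ.1.1 hx).1, (hσ.1.1 hx).2.trans_le hb⟩, fun c => hσ.2 hx (h c)⟩, hσ.1.2⟩⟩

end gen

variable {S : Type} [MulAction F3 S] {w : Wl (Fin 3) S} {F : Subgroup F3} {X : Type}
  [TopologicalSpace X] [MulAction F X] (N : Lev w F X) (v : F3) (h : Fin 3 → Bool) {ε R R₀ : ℝ}

/-- off a compact set the small simplices of the vertex region are far or deep -/
theorem exists_off (R : ℝ) {C : ℝ} (hC : 0 ≤ C) : ∃ B, IsCompact B ∧ ∀ B', B ⊆ B' → ∀ c : Fin 3 → ℝ,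
    (∀ j, c j ≤ 1) → ((N.Sb (core (fun j => N.s (st v h j)) c)).inf (On B'ᶜ)).Le
      ((On (hi N.r R)).sup (Sm (N.Dv v h C))) := by
  obtain ⟨D, hD⟩ := N.r_lip
  obtain ⟨D', hD'⟩ := N.s_lip
  refine ⟨_, N.cpt v 1 (R + D) (C + |D'|), fun B' hB c hc n σ ⟨⟨h1, U, hU, h2⟩, h3⟩ => ?_⟩
  obtain ⟨x, hx⟩ := range_nonempty σ
  rcases core_cover N hc (add_nonneg hC (abs_nonneg D')) (R + D) ⟨h1 hx, fun q => h3 hx (hB q)⟩ with
    q | ⟨_, ⟨e, q1, q2, rfl⟩, q⟩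
  · exact .inl fun y hy => show R < N.r y by
      linarith [hD U hU y (h2 hy) x (h2 hx), show R + D < N.r x from q]
  · exact .inr ⟨_, ⟨e, q1, q2, rfl⟩, fun y hy => show C < N.s e y by
      linarith [hD' e U hU y (h2 hy) x (h2 hx), show C + |D'| < N.s e x from q, le_abs_self D']⟩

/-- **off a compact set the small simplices of the vertex region belong to the end `Pv`** -/
theorem exists_off_Pv (hε : 0 ≤ ε) (hB : N.Big ε R) (h0 : R₀ ≤ R) : ∃ B, IsCompact B ∧ ∀ B', B ⊆ B' →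
    ∀ c : Fin 3 → ℝ, (∀ j, c j ≤ 1 - ε) →
      ((N.Sb (core (fun j => N.s (st v h j)) c)).inf (On B'ᶜ)).Le (N.Pv v h ε R₀) := by
  obtain ⟨B, h1, h2⟩ := N.exists_off v h R hε
  refine ⟨B, h1, fun B' hB' c hc n σ hσ => ?_⟩
  rcases h2 B' hB' c (fun j => (hc j).trans (by linarith)) n hσ with q | q
  · refine .inl (hB.sb h0 (U := range σ) q (fun x hx => ?_) n ⟨fun _ a => a, hσ.1.2⟩)
    exact Wl.mem_Mod3.2 fun j => hB.side _ x (q hx) ((hσ.1.1 hx j).trans_le (hc j))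
  · exact .inr ⟨q, hσ.1.2⟩

end Lev

end Crest.Agent.N255.En

end
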