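import Crest.Agent.N255.En.Cm
import Crest.Agent.N255.Ms.Bas
import Crest.Agent.N255.Cs.Id

/-!
# Row 255 (helper93): shrinking the end of a vertex region, the hypotheses of the vertex identity
-/

set_option autoImplicit false
open Set

noncomputable section

namespace Crest.Agent.N255.Cs
open Tp Tw

variable {X : Type} [TopologicalSpace X] {K : Type} [Field K] {t : Fin 3 → Bool}

/-- Magnus labels on a smaller family -/
def Mg.shr {ι : Type} (M : Mg ι X) (Q : Sb X) (h : Q.Le M.P) : Mg ι X :=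
  { M with P := Q, hx := fun i => Sb.Z_mono h (M.hx i), hy := fun i j σ hσ => M.hy i j σ (h 2 hσ) }

/-- the end of a vertex region on smaller families -/
def Vt.shr (V : Vt K X t) (Q : Sb X) (Qj : Fin 3 → Sb X) (hQ : Q.Le V.M.P)
    (hj : ∀ j, (Qj j).Le (V.T j).P) (hjQ : ∀ j, (Qj j).Le Q) (ht : ∀ j, (V.T j).t ∈ (Qj j).ch K 2)
    (hc : V.c ∈ Q.ch K 3) : Vt K X t where
  M := V.M.shr Q hQ
  T j := (V.T j).shr (Qj j) (hj j) (ht j)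
  e := V.e
  c := V.c
  le := hjQ
  hx j i s hs := V.hx j i s (hj j 1 hs)
  hy j i l s hs := V.hy j i l s (hj j 1 hs)
  hc := hc
  hb := V.hb

variable {p : ℕ} [hpp : Fact p.Prime] {O : Type} [CommRing O] [Algebra K O] {G : Gr (Gm p) K O}
  {m H L N : Ideal O} {V : Vt K X t} {Q : Sb X} {Qj : Fin 3 → Sb X} {hQ : Q.Le V.M.P}
  {hj : ∀ j, (Qj j).Le (V.T j).P} {hjQ : ∀ j, (Qj j).Le Q} {ht : ∀ j, (V.T j).t ∈ (Qj j).ch K 2}
  {hc : V.c ∈ Q.ch K 3} {x a b : Fin 3 → (Tw G)ˣ} {g : Cn G X}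

namespace Vt

theorem shr_A : (V.shr Q Qj hQ hj hjQ ht hc).A x a = V.A x a := rfl

theorem shr_la (j : Fin 3) : (V.shr Q Qj hQ hj hjQ ht hc).la x j = V.la x j := rfl

theorem shr_s (j : Fin 3) : ((V.shr Q Qj hQ hj hjQ ht hc).T j).s = (V.T j).s := rfl

variable [Fact ((p : O) = 0)]

theorem shr_W (j : Fin 3) (σ : Ch K 3 X) (u v : (Tw G)ˣ) :
    ((V.shr Q Qj hQ hj hjQ ht hc).T j).W σ g u v = (V.T j).W σ g u v := rfl

include hQ hj hjQ ht hc in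
/-- `Vt.phi` with the end hypotheses only on smaller families -/
theorem phi' (hm : G.Id m) (hn : IsNilpotent m) (hN : G.Id N) (hL : G.Id L) (Nm : N ≤ m)
    (Lm : L ≤ m) (NL : N * N * N ≤ L) (hx : ∀ j, x j ∈ U hN) (hM : ∀ j, t j = true → a j = x j)
    (ha : ∀ j, t j = false → In L ((a j).val - (1 + V.la x j)))
    (hb : ∀ j, In L ((b j).val - if t j then 1 + V.la x j else (x j).val))
    (h : ∀ s ∈ Q.S 1, In L ((g s).val - (1 + V.M.v (fun i => (x i).val - 1) s)))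
    (e : ∀ j, ∀ s ∈ (Qj j).S 1, g s = (V.T j).g (a j) (b j) s) {r : Ch K 4 X} {σ : Fin 3 → Ch K 3 X}
    (hσ : bd K r = V.c + ∑ j, if t j then σ j else -σ j) {W : Fin 3 → O}
    (hW : ∀ j, W j - (V.T j).W (σ j) g (a j) (b j) ∈ H) :
    (∑ j, if t j then W j else -W j) + V.A x a - ev K (PP g) r ∈ L * L ⊔ (m * (N * N * N) ⊔ H) :=
  (V.shr Q Qj hQ hj hjQ ht hc).phi hm hn hN hL Nm Lm NL hx hM ha hb h e hσ hW

end Vt

end Crest.Agent.N255.Cs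

namespace Crest.Agent.N255.En.Lev
open Tp Nv Pt Lv Ma Wn Cs Tw Ms

variable {S : Type} [MulAction F3 S] {w : Wl (Fin 3) S} {F : Subgroup F3} {X : Type}
  [TopologicalSpace X] [MulAction F X] (N : Lev w F X) {M : Md w} {ε R₀ R l r : ℝ} {v : F3}
  {h t : Fin 3 → Bool} {cc : Fin 3 → ℝ} {B B' : Set X} {e : Fin 3 → Ed (Fin 3)}

/-- beyond the longitude cuts -/
def Cj (v : F3) (h : Fin 3 → Bool) (cc : Fin 3 → ℝ) (j : Fin 3) : Set X := hi (N.s (st v h j)) (cc j)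

/-- small simplices of the end outside `B` -/
def Qv (v : F3) (h : Fin 3 → Bool) (ε R₀ : ℝ) (B : Set X) : Tp.Sb X :=
  ((N.Pv v h ε R₀).inf (Sm N.cv)).inf (On Bᶜ)

/-- small simplices of a torus, inside `C` and outside `B` -/
def Qj (R₀ : ℝ) (e : Ed (Fin 3)) (C B : Set X) : Tp.Sb X :=
  ((N.Lb R₀ (w.T e)).inf (Sm N.cv)).inf (On (C ∩ Bᶜ))

variable {N}

theorem s_add {e e' : Ed (Fin 3)} (hb : Bey (rev e) e') (x : X) : N.s e x + N.s e' x ≤ 0 := by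
  have := N.s_bey _ _ x hb
  rw [N.s_rev] at this
  linarith

theorem Cj_disj (h0 : ∀ j, 0 ≤ cc j) : Pairwise fun i j => Disjoint (N.Cj v h cc i) (N.Cj v h cc j) :=
  fun i j n => disjoint_left.2 fun x hx hx' => by
    have h1 : cc i < N.s (st v h i) x := hx
    have h2 : cc j < N.s (st v h j) x := hx'
    linarith [s_add (N := N) (st_bey v h n) x, h0 i, h0 j]

theorem Qv_anti (hB : B ⊆ B') : (N.Qv v h ε R₀ B').Le (N.Qv v h ε R₀ B) :=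
  fun _ _ hσ => ⟨hσ.1, hσ.2.trans (compl_subset_compl.2 hB)⟩

theorem mem_Qv {k : Type} [CommRing k] {n : ℕ} {c : Ch k n X} (h1 : c ∈ (N.Pv v h ε R₀).ch k n)
    (h2 : c ∈ (Sm N.cv).ch k n) (h3 : c ∈ (On Bᶜ).ch k n) : c ∈ (N.Qv v h ε R₀ B).ch k n :=
  fun _ hσ => ⟨⟨h1 hσ, h2 hσ⟩, h3 hσ⟩

theorem mem_Qj {k : Type} [CommRing k] {n : ℕ} {c : Ch k n X} {e e' : Ed (Fin 3)} {a : ℝ}
    (h1 : c ∈ (N.Lb R₀ (w.T e)).ch k n) (h2 : c ∈ (Sm N.cv).ch k n)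
    (h3 : c ∈ (On (fw (N.s e') N.r l r R)).ch k n) (ha : a ≤ l) (hB : ∀ x ∈ B, N.r x ≤ R) :
    c ∈ (N.Qj R₀ e (hi (N.s e') a) B).ch k n :=
  fun _ hσ => ⟨⟨h1 hσ, h2 hσ⟩, fun x hx =>
    ⟨ha.trans_lt (h3 hσ hx).2.1, fun q => (hB x q).not_gt (h3 hσ hx).1⟩⟩

theorem Qj_le (he : ∀ j, e j = if t j then st v h j else rev (st v h j)) (j : Fin 3) (C : Set X) :
    (N.Qj R₀ (e j) C B).Le (N.Qv v h ε R₀ B) := fun n _ hσ =>
  ⟨⟨T_le_Pv j n (T_ek (w := w) he j ▸ hσ.1.1), hσ.1.2⟩, hσ.2.trans inter_subset_right⟩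

/-- deep simplices do not meet the slots -/
theorem deep_out (hε : 0 ≤ ε) (h0 : ∀ j, 0 ≤ cc j) {n : ℕ} {σ : Sx n X}
    (hσ : σ ∈ (Sm (N.Dv v h ε)).S n) (j : Fin 3) : range σ ⊆ (N.Cj v h cc j)ᶜ := by
  obtain ⟨_, ⟨e, -, hb, rfl⟩, h1⟩ := hσ
  intro x hx q
  have h2 : ε < N.s e x := h1 hx
  have h3 : cc j < N.s (st v h j) x := q
  linarith [s_add (N := N) (hb j) x, h0 j]

theorem vl_last (σ : Sx 1 X) {C : Set X} (hσ : range (bk 0 σ) ⊆ C) :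
    σ (stdSimplex.vertex 1) ∈ C := by
  have := hσ ⟨stdSimplex.vertex 0, rfl⟩
  change σ (stdSimplex.map _ (stdSimplex.vertex 0)) ∈ C at this
  rwa [stdSimplex.map_vertex] at this

/-- outside a compact set the small edges that end in a slot lie on its torus -/
theorem exists_B (hB : N.Big ε R₀) (hε : 0 ≤ ε) (hc : ∀ j, ε < cc j) : ∃ B, IsCompact B ∧
    ∀ σ ∈ (N.Qv v h ε R₀ B).S 1, ∀ j, slv (N.Cj v h cc) σ = some j →
      σ ∈ (N.Lb R₀ (w.T (st v h j))).S 1 := by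
  have h0 : ∀ j, 0 ≤ cc j := fun j => hε.trans (hc j).le
  choose R hR using fun j => N.s_slow ((cc j - ε) / 2) (by linarith [hc j])
  refine ⟨⋃ j, {x | N.r x ≤ R j ∧ |N.s (st v h j) x| ≤ 2},
    isCompact_iUnion fun j => N.cpt_w _ _ _, ?_⟩
  rintro σ ⟨⟨h1 | h1, U, hU, h2⟩, h3⟩ j q
  swap
  · exact absurd q (slv_ne (deep_out hε h0 h1.1 j))
  have h4 : cc j < N.s (st v h j) (σ (stdSimplex.vertex 1)) :=
    vl_last σ ((slv_some (Cj_disj h0)).1 q)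
  have f : ∀ y, R₀ < N.r (σ y) := fun y => h1.1 ⟨y, rfl⟩
  have l1 : ∀ i : Fin 2, ε < N.s (st v h j) (σ (stdSimplex.vertex i)) →
      vl N.lab σ i ∈ w.T (st v h j) := fun i hi =>
    w.mem_T (Wl.mem_Mod3.1 (Lb_lab h1 i) j) (hB.side' (f _) hi)
  have h5 := N.lab_T _ _ (hB.le.trans_lt (f _)) (l1 1 ((hc j).trans h4))
  have h6 : R j < N.r (σ (stdSimplex.vertex 1)) :=
    not_le.1 fun z => h3 ⟨_, rfl⟩ (mem_iUnion.2 ⟨j, z, h5⟩)
  refine ⟨h1.1, ?_, h1.2.2⟩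
  rintro _ ⟨i, rfl⟩
  refine l1 i ?_
  have h7 := hR j (rev (st v h j)) U hU _ (h2 ⟨stdSimplex.vertex 1, rfl⟩) _
    (h2 ⟨stdSimplex.vertex i, rfl⟩) h6
  rw [N.s_rev, N.s_rev] at h7
  linarith [hc j]

variable {k : Type} [Field k] {hB : N.Big ε R₀} {L : Ma.Gm w M}
  {he : ∀ j, e j = if t j then st v h j else rev (st v h j)}
  {τ τ' : Fin 3 → Ch k 2 X} {h1 : ∀ j, τ j ∈ (N.Lb R₀ (w.T (e j))).ch k 2} {h2 : ∀ j, bd k (τ j) = 0}
  {h1' : ∀ j, τ' j ∈ (N.Lb R₀ (w.T (e j))).ch k 2} {h2' : ∀ j, bd k (τ' j) = 0}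
  {c c' : Ch k 3 X} {hc : c ∈ (N.Pv v h ε R₀).ch k 3} {hc' : c' ∈ (N.Pv v h ε R₀).ch k 3}
  {hb : bd k c + ∑ j, (if t j then τ j else -τ j) = 0}
  {hb' : bd k c' + ∑ j, (if t j then τ' j else -τ' j) = 0}

/-- **the shrunk end** -/
def vtS (hB : N.Big ε R₀) (L : Ma.Gm w M) (he : ∀ j, e j = if t j then st v h j else rev (st v h j))
    (cc : Fin 3 → ℝ) (B : Set X) (τ : Fin 3 → Ch k 2 X)
    (h1 : ∀ j, τ j ∈ (N.Qj R₀ (e j) (N.Cj v h cc j) B).ch k 2) (h2 : ∀ j, bd k (τ j) = 0)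
    (c : Ch k 3 X) (hc : c ∈ (N.Qv v h ε R₀ B).ch k 3)
    (hb : bd k c + ∑ j, (if t j then τ j else -τ j) = 0) : Vt k X t :=
  (vt hB L he τ (fun j _ q => (h1 j q).1.1) h2 c (fun _ q => (hc q).1.1) hb).shr (N.Qv v h ε R₀ B)
    (fun j => N.Qj R₀ (e j) (N.Cj v h cc j) B) (fun _ _ q => q.1.1) (fun _ _ _ q => q.1.1)
    (fun j => Qj_le he j _) h1 hc

variable {p : ℕ} [hpp : Fact p.Prime] {A : Type} [CommRing A] [Algebra k A] {G : Gr (Cs.Gm p) k A}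
  {m I J : Ideal A} {x a b : Fin 3 → (Tw G)ˣ} {hm : G.Id m} {hn : IsNilpotent m}
  {hx : ∀ j, x j ∈ Tw.U hm} {g : Cn G X}

/-- the base does not depend on the chains -/
theorem bs_vt (sl : Sx 1 X → Option (Fin 3)) :
    bs (vt hB L he τ h1 h2 c hc hb) sl a b hm hn hx =
      bs (vt hB L he τ' h1' h2' c' hc' hb') sl a b hm hn hx := rfl

/-- hypothesis `h` of the vertex identity -/
theorem end_h (hI : G.Id I) (hJ : G.Id J) (Im : I ≤ m) (IJ : I * I * I ≤ J) (hx' : ∀ j, x j ∈ Tw.U hI)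
    (ha : ∀ j, a j ∈ Tw.U hm) (hb0 : ∀ j, b j ∈ Tw.U hm)
    (ja : ∀ j, In J (ja (vt hB L he τ h1 h2 c hc hb) x a j))
    (jb : ∀ j, In J (jb (vt hB L he τ h1 h2 c hc hb) x b j))
    (hT : ∀ σ ∈ (N.Qv v h ε R₀ B).S 1, ∀ j, slv (N.Cj v h cc) σ = some j →
      σ ∈ (N.Lb R₀ (w.T (st v h j))).S 1)
    (hg : ∀ σ ∈ (On Bᶜ).S 1, g σ = bs (vt hB L he τ h1 h2 c hc hb) (slv (N.Cj v h cc)) a b hm hn hx σ) :
    ∀ σ ∈ (N.Qv v h ε R₀ B).S 1,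
      In J ((g σ).val - (1 + (mg hB L v h).v (fun i => (x i).val - 1) σ)) := fun σ hσ => by
  rw [hg σ hσ.2]
  exact bs_std (V := vt hB L he τ h1 h2 c hc hb) hI hJ Im IJ hx' ha hb0 fun j q =>
    ⟨show σ ∈ (N.Lb R₀ (w.T (e j))).S 1 from T_ek (w := w) he j ▸ hT σ hσ j q, ja j, jb j⟩

/-- hypothesis `e` of the vertex identity -/
theorem end_e (h0 : ∀ j, 0 ≤ cc j)
    (hg : ∀ σ ∈ (On Bᶜ).S 1, g σ = bs (vt hB L he τ h1 h2 c hc hb) (slv (N.Cj v h cc)) a b hm hn hx σ)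
    (j : Fin 3) : ∀ σ ∈ (N.Qj R₀ (e j) (N.Cj v h cc j) B).S 1, g σ = N.gs0 M R₀ (e j) (a j) (b j) σ :=
  fun σ hσ => by
    rw [hg σ (hσ.2.trans inter_subset_right),
      bs_some (slv_in (Cj_disj h0) (hσ.2.trans inter_subset_left))]
    rfl

end Crest.Agent.N255.En.Lev

end
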