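import Crest.Agent.N255.En.Off
import Crest.Agent.N255.En.VtS

/-!
# Row 255 (helper87): the three geometric conditions outside a compact set at a vertex
-/

set_option autoImplicit false
open Set

noncomputable section

namespace Crest.Agent.N255.En.Lev
open Tp Nv Pt Lv Ma Wn Vc Ms

variable {S : Type} [MulAction F3 S] {w : Wl (Fin 3) S} {F : Subgroup F3} {X : Type}
  [TopologicalSpace X] [MulAction F X] {N : Lev w F X} {v : F3} {h t : Fin 3 → Bool} {ε R₀ : ℝ}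
  {cc : Fin 3 → ℝ} {e : Fin 3 → Ed (Fin 3)}

/-- **off a compact set** small simplices of the vertex region lie in the end, those ending in a
slot and those of the windows lie on the tori -/
theorem exists_off3 (hε : 0 ≤ ε) (hB : N.Big ε R₀) (hc : ∀ j, ε < cc j)
    (he : ∀ j, e j = if t j then st v h j else rev (st v h j)) : ∃ B, IsCompact B ∧ ∀ K, B ⊆ K →
      ((N.Sb (core (fun j => N.s (st v h j)) fun _ => 1 - ε)).inf (On Kᶜ)).Le (N.Pv v h ε R₀) ∧
      (∀ i, ∀ σ ∈ ((N.Sb (core (fun j => N.s (st v h j)) fun _ => 1 - ε)).inf (On Kᶜ)).S 1,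
        slv (fun j => hi (N.s (st v h j)) (cc j)) σ = some i → σ ∈ (N.Lb R₀ (w.T (e i))).S 1) ∧
      ∀ i, ((N.Sb (win (N.s (st v h i)) ε (1 - ε))).inf (On Kᶜ)).Le (N.Lb R₀ (w.T (e i))) := by
  obtain ⟨B₁, a1, b1⟩ := N.exists_off_Pv v h hε hB le_rfl
  obtain ⟨B₂, a2, b2⟩ := exists_B (v := v) (h := h) hB hε hc
  choose B₃ a3 b3 using fun i => N.exists_off_Lb hB le_rfl (st v h i)
  refine ⟨B₁ ∪ B₂ ∪ ⋃ i, B₃ i, (a1.union a2).union (isCompact_iUnion a3), fun K hK => ?_⟩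
  have c1 := b1 K (fun _ q => hK (.inl (.inl q))) _ fun _ => le_rfl
  refine ⟨c1, fun i σ hσ q => ?_, fun i => ?_⟩ <;> rw [T_ek (w := w) he]
  · exact b2 σ ⟨⟨c1 1 hσ, hσ.1.2⟩, hσ.2.trans (compl_subset_compl.2 fun _ q => hK (.inl (.inr q)))⟩ i q
  · exact b3 i K (fun _ q => hK (.inr (mem_iUnion.2 ⟨i, q⟩))) _ _ le_rfl le_rfl

end Crest.Agent.N255.En.Lev

end
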