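import Crest.Agent.N255.En.Defs
import Crest.Agent.N255.Fa.Pa0

/-!
# Row 255 (helper89): the field `pa0` of `Tl`
-/

set_option autoImplicit false

noncomputable section

namespace Crest.Agent.N255.En

open Set Ce Gs Tp Uc Lv Fa Nv

variable {S K F Nd Ed : Type} [DecidableEq S] [Group F] [MulAction F Nd] [MulAction F Ed]
  [LinearOrder K] [Finite K] {M : Mir S K F Nd Ed} {c : ℕ → ℕ} {G' : Subgroup M.G} [G'.FiniteIndex]
  {T : Type} [TopologicalSpace T] [MulAction G' T] [ContinuousConstSMul G' T] {K₀ : Set T}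
  {ι : Type} [DecidableEq ι] [MulAction (FreeGroup ι) S] {w : Wl ι S}
  {F' : Subgroup (FreeGroup ι)} [MulAction F' T]

theorem clique_of_cq {S : Type} {Γ : SimpleGraph S} {σ : Set S} (h : Cq (Cl Γ) σ) : Γ.IsClique σ :=
  fun a ha b hb e => (h a ha b hb).resolve_left e

/-- **(PA0)** -/
theorem pa0_of (H : M.Cham) (hN : NA M.Γ) (h : FD 4 G' K₀) (s : Slow c) (P : Pu G' T) (o : Vt M)
    (k : Type) [Field k] (N : Lev w F' T) (hΓ : w.Γ = M.Γ) (ν : S → C(T, ℝ))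
    (hr : ∀ x, N.r x = P.av (fun g => (rad M (g.1.1 • o) : ℝ)) x)
    (hν : ∀ a x, ν a x = P.av (fun g => nu M s a (g.1.1 • o)) x) : N.PA0 k ν := by
  have e : ∀ σ th R, N.U ν σ th R = UT s P o σ th R := fun σ th R => by
    simp only [Lev.U, UT, hr, hν]
  intro C ε R hε
  obtain ⟨R1, h1⟩ := (gd_holds H).pa0 s P o hN h k C hε R
  refine ⟨R1, fun σ ne hσ th ht => ?_⟩
  rw [e, e]
  exact h1 σ (clique_of_cq (hΓ ▸ hσ)) ne _ _ fun a ha =>
    ⟨hε.le.trans (ht a ha).1, (ht a ha).2, le_rfl⟩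

end Crest.Agent.N255.En

end
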