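import Crest.Agent.N255.Tp.ProNe
import Crest.Agent.N255.Nv.Ne

/-!
# Row 255 (helper88): the far parts of sides, windows and vertex regions have pro-acyclic label covers
-/

set_option autoImplicit false
open Set Filter Topology

noncomputable section

namespace Crest.Agent.N255.Pa

open Crest.Agent.N255.Tp Crest.Agent.N255.Nv

/-- far data: labels `I`, geometric edges `E` -/
structure FarD (X I E : Type) [TopologicalSpace X] where
  R : I → I → Prop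
  ν : I → C(X, ℝ)
  r : C(X, ℝ)
  h : E → C(X, ℝ)
  Tw : E → Set I
  Aw : E → Set I

variable {X I E : Type} [TopologicalSpace X]

namespace FarD

variable (D : FarD X I E)

/-- union carriers -/
def U (s : Finset I) (th : I → ℝ) (R₀ : ℝ) : Set X :=
  {x | ∃ a ∈ s, th a < D.ν a x} ∩ {x | R₀ < D.r x}

/-- the far facts at scale `ε` beyond the radius `R₀` -/
structure Big (ε R₀ : ℝ) : Prop where
  adj : ∀ x, R₀ < D.r x → ∀ a b, ε < D.ν a x → ε < D.ν b x → D.R a b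
  hA1 : ∀ x, R₀ < D.r x → ∀ e, ∀ b ∈ D.Aw e, min 1 (D.ν b x) ≤ D.h e x + ε
  hA2 : ∀ x, R₀ < D.r x → ∀ e, ε < D.h e x → ∃ b ∈ D.Aw e, D.h e x < D.ν b x + ε

/-- the hypotheses -/
structure Ok (k : Type) [CommRing k] (q m : ℕ) (C : ℝ) : Prop where
  refl : ∀ a, D.R a a
  symm : ∀ a b, D.R a b → D.R b a
  card : ∀ s : Finset I, Cq D.R s → s.card ≤ q
  pa0 : ∀ ε R₀ : ℝ, 0 < ε → ∃ R₁, ∀ (s : Finset I) (th : I → ℝ), s.Nonempty → Cq D.R s →
    (∀ a, ε ≤ th a ∧ th a + ε ≤ C) → Acy k (D.U s (fun a => th a + ε) R₁) (D.U s th R₀)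
  ne0 : ∀ (a : I) (c R₀ : ℝ), c < C → ∃ x, c < D.ν a x ∧ R₀ < D.r x
  pa1 : ∀ ε R₀ : ℝ, 0 < ε → ∃ R₁, ∀ (e : E) (s : Finset I) (th : I → ℝ) (t : ℝ), s.Nonempty →
    Cq D.R s → Disjoint (s : Set I) (D.Aw e) → (∀ a, ε ≤ th a ∧ th a + ε ≤ C) →
    (∀ a ∈ s, a ∈ D.Tw e → 2 ≤ th a) → ε ≤ t → t ≤ 1 - ε →
    Acy k (D.U s (fun a => th a + ε) R₁ ∩ {x | D.h e x < t}) (D.U s th R₀ ∩ {x | D.h e x < t + ε})
  ne1 : ∀ (e : E) (a : I) (c R₀ ε : ℝ), c < C → 0 < ε → a ∉ D.Aw e →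
    ∃ x, c < D.ν a x ∧ R₀ < D.r x ∧ D.h e x < ε
  big : ∀ ε : ℝ, 0 < ε → ∃ R₀, D.Big ε R₀
  sep : ∀ e a b, D.R a b → b ∈ D.Aw e → a ∈ D.Tw e ∪ D.Aw e
  dis : ∀ e, Disjoint (D.Tw e) (D.Aw e)
  nev : ∀ e (s : Finset I), s.Nonempty → Cq D.R s → (s : Set I) ⊆ D.Tw e →
    Nev D.R m {b | b ∈ D.Aw e ∧ ∀ a ∈ s, D.R a b}

end FarD

/-- the retreats -/
def u (n : ℕ) : ℝ := 1 / ((n : ℝ) + 1)

theorem u_pos (n : ℕ) : 0 < u n := Nat.one_div_pos_of_nat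

theorem u_le (n : ℕ) : u n ≤ 1 := by
  rw [u, div_le_one (by positivity)]; simp

theorem u_anti : Antitone u := fun _ _ h => Nat.one_div_le_one_div h

theorem u_lt (n : ℕ) : u (n + 1) < u n := Nat.one_div_lt_one_div (Nat.lt_succ_self n)

theorem exists_stage (R₀ R₁ : ℝ) (n : ℕ) : ∃ n', n + 1 ≤ n' ∧ R₁ ≤ R₀ + n' := by
  obtain ⟨N, hN⟩ := exists_nat_ge (R₁ - R₀)
  refine ⟨max (n + 1) N, le_max_left _ _, ?_⟩
  have : (N : ℝ) ≤ (max (n + 1) N : ℕ) := Nat.cast_le.2 (le_max_right _ _)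
  linarith

theorem nev_card {R : I → I → Prop} : ∀ {m : ℕ} {t : Finset I}, Nev R m (t : Set I) → t.card ≤ m + 1
  | 0, t, ⟨a, h⟩ => by rw [Finset.coe_eq_singleton.1 h]; simp
  | m + 1, t, h => by
    classical
    rcases h with ⟨a, h⟩ | ⟨v, hv, h, -⟩
    · rw [Finset.coe_eq_singleton.1 h]; simp
    · rw [← Finset.coe_erase] at h
      have := nev_card h
      rw [Finset.card_erase_of_mem hv] at this
      omega

theorem peel_nev (R : I → I → Prop) : Peel R fun t => ∃ m, Nev R m (t : Set I) := by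
  classical
  rintro t ⟨m, h⟩
  cases m with
  | zero => exact Or.inl (h.imp fun a h => Finset.coe_eq_singleton.1 h)
  | succ m =>
    rcases h with ⟨a, h⟩ | ⟨v, hv, h, h'⟩
    · exact Or.inl ⟨a, Finset.coe_eq_singleton.1 h⟩
    · refine Or.inr ⟨v, hv, ⟨m, by simpa using h⟩, m, ?_⟩
      convert h' using 1
      ext w
      simp [Lk, and_comm]

namespace FarD

variable (D : FarD X I E) (δ R₀ : ℝ)

/-- the label cover at stage `n` -/
def B (th : I → ℝ) (a : I) (n : ℕ) : Set X :=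
  {x | th a - δ * u n < D.ν a x} ∩ {x | R₀ + n < D.r x}

/-- below the level `t` -/
def Lo (e : E) (t : ℝ) (n : ℕ) : Set X := {x | D.h e x < t + δ * u n}

/-- above the level `t` -/
def Hi (e : E) (t : ℝ) (n : ℕ) : Set X := {x | t - δ * u n < D.h e x}

variable {D δ R₀} {k : Type} [CommRing k] {q m : ℕ} {C : ℝ}

theorem oB (hδ : 0 < δ) {J : Type} (th : J → I → ℝ) (a : J → I) :
    OSys fun j => D.B δ R₀ (th j) (a j) :=
  ⟨fun j _ => (isOpen_lt continuous_const (D.ν _).continuous).inter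
    (isOpen_lt continuous_const D.r.continuous), fun j n n' h x hx => by
      have h1 := mul_le_mul_of_nonneg_left (u_anti h) hδ.le
      have h2 : (n : ℝ) ≤ n' := Nat.cast_le.2 h
      have h3 : th j (a j) - δ * u n' < D.ν (a j) x := hx.1
      have h4 : R₀ + n' < D.r x := hx.2
      exact ⟨show th j (a j) - δ * u n < D.ν (a j) x by linarith, show R₀ + n < D.r x by linarith⟩⟩

theorem oLo (hδ : 0 < δ) {J : Type} (e : J → E) (t : J → ℝ) : OSys fun j => D.Lo δ (e j) (t j) :=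
  ⟨fun j _ => isOpen_lt (D.h _).continuous continuous_const, fun j n n' h x hx => by
    have h1 := mul_le_mul_of_nonneg_left (u_anti h) hδ.le
    have h3 : D.h (e j) x < t j + δ * u n' := hx
    exact show D.h (e j) x < t j + δ * u n by linarith⟩

theorem oHi (hδ : 0 < δ) {J : Type} (e : J → E) (t : J → ℝ) : OSys fun j => D.Hi δ (e j) (t j) :=
  ⟨fun j _ => isOpen_lt continuous_const (D.h _).continuous, fun j n n' h x hx => by
    have h1 := mul_le_mul_of_nonneg_left (u_anti h) hδ.le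
    have h3 : t j - δ * u n' < D.h (e j) x := hx
    exact show t j - δ * u n < D.h (e j) x by linarith⟩

theorem oX (hδ : 0 < δ) {J : Type} (th : J → I → ℝ) (s : J → Finset I) :
    OSys fun j n => ⋂ a ∈ s j, D.B δ R₀ (th j) a n :=
  OSys.biInter (B := fun j a => D.B δ R₀ (th j) a)
    (oB hδ (fun p : J × I => th p.1) fun p => p.2) id s

theorem un_B (th : I → ℝ) (s : Finset I) (n : ℕ) :
    ⋃ a ∈ s, D.B δ R₀ th a n = D.U s (fun a => th a - δ * u n) (R₀ + n) := by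
  ext x
  simp only [B, U, mem_iUnion, mem_inter_iff, mem_ofPred_eq]
  exact ⟨fun ⟨a, ha, h, h'⟩ => ⟨⟨a, ha, h⟩, h'⟩, fun ⟨⟨a, ha, h⟩, h'⟩ => ⟨a, ha, h, h'⟩⟩

theorem U_mono {s : Finset I} {th th' : I → ℝ} {R₁ R₂ : ℝ} (h : ∀ a, th a ≤ th' a) (h' : R₁ ≤ R₂) :
    D.U s th' R₂ ⊆ D.U s th R₁ := fun _ hx =>
  ⟨hx.1.imp fun a ha => ⟨ha.1, (h a).trans_lt ha.2⟩, h'.trans_lt hx.2⟩

/-- admissible thresholds -/
def Th (δ C : ℝ) (th : I → ℝ) : Prop := ∀ a, 2 * δ ≤ th a ∧ th a ≤ C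

theorem eps_facts (hδ : 0 < δ) (n : ℕ) :
    0 < δ * (u n - u (n + 1)) ∧ δ * (u n - u (n + 1)) ≤ δ ∧ 0 < δ * u n ∧ δ * u n ≤ δ := by
  have h1 := u_lt n
  have h2 := u_pos (n + 1)
  have h3 := u_le n
  refine ⟨mul_pos hδ (by linarith), ?_, mul_pos hδ (u_pos n), ?_⟩ <;> nlinarith

/-- intersections of the label cover -/
theorem Ok.pac0 [Nontrivial k] (H : D.Ok k q m C) (hδ : 0 < δ) {J : Type} (th : J → I → ℝ)
    (s : J → Finset I) (ht : ∀ j, Th δ C (th j)) (hs : ∀ j, (s j).Nonempty ∧ Cq D.R (s j)) :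
    PAc k fun j n => ⋂ a ∈ s j, D.B δ R₀ (th j) a n := by
  refine (PAc.inter_of_union (k := k) (C := fun (_ : J) s => s.Nonempty ∧ Cq D.R s) (m := q)
    (B := fun j a => D.B δ R₀ (th j) a)
    ⟨fun _ _ h => h.1, fun _ _ _ h ht hn => ⟨hn, h.2.mono ht⟩, fun _ s h => H.card s h.2⟩
    (oB hδ (fun p : J × I => th p.1) fun p => p.2) ⟨?_, fun n => ?_⟩).comp
    fun j => ⟨(j, s j), hs j⟩
  · rintro ⟨⟨j, s⟩, ⟨a, ha⟩, -⟩ n
    obtain ⟨x, hx, hx'⟩ := H.ne0 a (th j a - δ * u n) (R₀ + n)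
      ((sub_lt_self _ (eps_facts hδ n).2.2.1).trans_le (ht j a).2)
    exact ⟨x, mem_iUnion₂.2 ⟨a, ha, hx, hx'⟩⟩
  · obtain ⟨e1, e2, e3, e4⟩ := eps_facts hδ n
    obtain ⟨-, -, e5, e6⟩ := eps_facts hδ (n + 1)
    obtain ⟨R₁, h⟩ := H.pa0 _ (R₀ + n) e1
    obtain ⟨n', h1, h2⟩ := exists_stage R₀ R₁ n
    refine ⟨n', by omega, ?_⟩
    rintro ⟨⟨j, s⟩, h4, h5⟩
    have h6 := mul_le_mul_of_nonneg_left (u_anti h1) hδ.le
    simp only [un_B]
    exact acy_mono (h s _ h4 h5 fun a => ⟨by linarith [(ht j a).1], by linarith [(ht j a).2]⟩)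
      (U_mono (fun a => by linarith) h2) subset_rfl

/-- below a level -/
theorem Ok.pacLo [Nontrivial k] (H : D.Ok k q m C) (hδ : 0 < δ) {J : Type} (e : J → E)
    (th : J → I → ℝ) (t : J → ℝ) (s : J → Finset I) (ht : ∀ j, Th δ C (th j))
    (ht1 : ∀ j a, 2 + δ ≤ th j a) (hl : ∀ j, δ ≤ t j ∧ t j ≤ 1 - 2 * δ)
    (hs : ∀ j, (s j).Nonempty ∧ Cq D.R (s j) ∧ Disjoint (s j : Set I) (D.Aw (e j))) :
    PAc k fun j n => (⋂ a ∈ s j, D.B δ R₀ (th j) a n) ∩ D.Lo δ (e j) (t j) n := by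
  refine ((PAc.inter_of_union (k := k)
    (C := fun (j : J) s => s.Nonempty ∧ Cq D.R s ∧ Disjoint (s : Set I) (D.Aw (e j))) (m := q)
    (B := fun j a n => D.B δ R₀ (th j) a n ∩ D.Lo δ (e j) (t j) n)
    ⟨fun _ _ h => h.1, fun _ _ _ h ht hn => ⟨hn, h.2.1.mono ht, h.2.2.mono_left ht⟩,
      fun _ s h => H.card s h.2.1⟩
    ((oB hδ (fun p : J × I => th p.1) fun p => p.2).inter
      (oLo hδ (fun p : J × I => e p.1) fun p => t p.1)) ⟨?_, fun n => ?_⟩).comp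
    fun j => ⟨(j, s j), hs j⟩).congr ?_
  · rintro ⟨⟨j, s⟩, ⟨a, ha⟩, -, h2⟩ n
    have e3 := (eps_facts hδ n).2.2.1
    obtain ⟨x, hx, hx', hx''⟩ := H.ne1 (e j) a (th j a - δ * u n) (R₀ + n) δ
      ((sub_lt_self _ e3).trans_le (ht j a).2) hδ (disjoint_left.1 h2 ha)
    refine ⟨x, mem_iUnion₂.2 ⟨a, ha, ⟨hx, hx'⟩, ?_⟩⟩
    have := (hl j).1
    exact show D.h (e j) x < t j + δ * u n by linarith
  · obtain ⟨e1, e2, e3, e4⟩ := eps_facts hδ n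
    obtain ⟨-, -, e5, e6⟩ := eps_facts hδ (n + 1)
    obtain ⟨R₁, h⟩ := H.pa1 _ (R₀ + n) e1
    obtain ⟨n', h1, h2⟩ := exists_stage R₀ R₁ n
    refine ⟨n', by omega, ?_⟩
    rintro ⟨⟨j, s⟩, h4, h5, h9⟩
    obtain ⟨h7, h8⟩ := hl j
    have h6 := mul_le_mul_of_nonneg_left (u_anti h1) hδ.le
    dsimp only at *
    simp only [← iUnion₂_inter, un_B]
    refine acy_mono (h (e j) s (fun a => th j a - δ * u n) (t j + δ * u (n + 1)) h4 h5 h9
      (fun a => ⟨by linarith [(ht j a).1], by linarith [(ht j a).2]⟩)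
      (fun a _ _ => by linarith [ht1 j a]) (by linarith) (by linarith))
      (inter_subset_inter (U_mono (fun a => by linarith) h2) fun x hx => ?_)
      (inter_subset_inter_right _ fun x hx => ?_)
    · have : D.h (e j) x < t j + δ * u n' := hx
      exact show D.h (e j) x < t j + δ * u (n + 1) by linarith
    · have : D.h (e j) x < t j + δ * u (n + 1) + δ * (u n - u (n + 1)) := hx
      exact show D.h (e j) x < t j + δ * u n by linarith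
  · intro j n
    obtain ⟨a, ha⟩ := (hs j).1
    ext x
    simp only [mem_inter_iff, mem_iInter]
    exact ⟨fun h b hb => ⟨h.1 b hb, h.2⟩, fun h => ⟨fun b hb => (h b hb).1, (h a ha).2⟩⟩

theorem Big.mono {ε R₁ R₂ : ℝ} (h : D.Big ε R₁) (hR : R₁ ≤ R₂) : D.Big ε R₂ :=
  ⟨fun x hx => h.adj x (hR.trans_lt hx), fun x hx => h.hA1 x (hR.trans_lt hx),
    fun x hx => h.hA2 x (hR.trans_lt hx)⟩

theorem B_far {th : I → ℝ} {a : I} {n : ℕ} {x : X} (h : x ∈ D.B δ R₀ th a n) : R₀ < D.r x :=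
  (le_add_of_nonneg_right (Nat.cast_nonneg n)).trans_lt h.2

theorem B_gt (hδ : 0 < δ) {th : I → ℝ} {a : I} {n : ℕ} {x : X} (h : x ∈ D.B δ R₀ th a n) :
    th a - δ < D.ν a x := (sub_le_sub_left (eps_facts hδ n).2.2.2 _).trans_lt h.1

theorem B_adj (hδ : 0 < δ) (hB : D.Big δ R₀) {th : I → ℝ} (ht : Th δ C th) {a b : I} {n : ℕ} {x : X}
    (h : x ∈ D.B δ R₀ th a n) (h' : x ∈ D.B δ R₀ th b n) : D.R a b :=
  hB.adj x (B_far h) a b (by linarith [B_gt hδ h, (ht a).1]) (by linarith [B_gt hδ h', (ht b).1])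

open Classical in
/-- above a level -/
theorem Ok.pacHi [Nontrivial k] (H : D.Ok k q m C) (hδ : 0 < δ) (hB : D.Big δ R₀) (hC : 1 ≤ C)
    {J : Type} (e : J → E) (th : J → I → ℝ) (t : J → ℝ) (s : J → Finset I)
    (ht : ∀ j, Th δ C (th j)) (hl : ∀ j, 2 * δ ≤ t j ∧ t j ≤ 1)
    (hs : ∀ j, (s j).Nonempty ∧ Cq D.R (s j) ∧ (s j : Set I) ⊆ D.Tw (e j)) :
    PAc k fun j n => (⋂ a ∈ s j, D.B δ R₀ (th j) a n) ∩ D.Hi δ (e j) (t j) n := by
  let th' : J → I → ℝ := fun j a => if a ∈ D.Aw (e j) then t j else th j a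
  have hT : ∀ j, Th δ C (th' j) := fun j a => by
    dsimp only [th']
    split_ifs
    exacts [⟨(hl j).1, (hl j).2.trans hC⟩, ht j a]
  have hN := fun j => H.nev (e j) (s j) (hs j).1 (hs j).2.1 (hs j).2.2
  let L : J → Finset I := fun j => (hN j).finite.toFinset
  have hL : ∀ j b, b ∈ L j ↔ b ∈ D.Aw (e j) ∧ ∀ a ∈ s j, D.R a b := fun j b =>
    Finite.mem_toFinset _
  have hN' : ∀ j, Nev D.R m (L j : Set I) := fun j => by simpa only [L, Finite.coe_toFinset] using hN j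
  have hO : ∀ j, OkL D.R (fun (_ : J) s => s.Nonempty ∧ Cq D.R s) j (s j) (L j) := by
    intro j w hw _ hc
    refine ⟨(hs j).1.inl, fun a ha b hb => ?_⟩
    have hw' : ∀ b ∈ w, ∀ a ∈ s j, D.R a b := fun b hb => ((hL j b).1 (hw hb)).2
    rcases Finset.mem_union.1 ha with ha | ha <;> rcases Finset.mem_union.1 hb with hb | hb
    exacts [(hs j).2.1 a ha b hb, hw' b hb a ha, H.symm _ _ (hw' a ha b hb), hc a ha b hb]
  have h0 : PAc k fun j n => (⋂ a ∈ s j, D.B δ R₀ (th' j) a n) ∩ ⋃ a ∈ L j, D.B δ R₀ (th' j) a n :=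
    (PAc.of_peel (k := k) (J := J)
    (C := fun _ s => s.Nonempty ∧ Cq D.R s) (B := fun j a => D.B δ R₀ (th' j) a) H.refl H.symm
    (peel_nev D.R) (oB hδ (fun p : J × I => th' p.1) fun p => p.2)
    (fun j a b n h => disjoint_left.2 fun x hx hx' => h (B_adj hδ hB (hT j) hx hx'))
    (H.pac0 hδ _ _ (fun p => hT p.1.1) fun p => p.2) (m + 1)).comp
      fun j => ⟨(j, s j, L j), ⟨m, hN' j⟩, nev_card (hN' j), hO j⟩
  have hs' : ∀ j n, ∀ a ∈ s j, D.B δ R₀ (th' j) a n = D.B δ R₀ (th j) a n := fun j n a ha => by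
    simp only [B, th', if_neg (disjoint_left.1 (H.dis _) ((hs j).2.2 ha))]
  refine h0.interleave ((oX hδ th s).inter (oHi hδ e t)).anti (fun n => ?_) fun n => ?_
  all_goals
    obtain ⟨e1, e2, e3, e4⟩ := eps_facts hδ n
    obtain ⟨R₁, h⟩ := H.big _ e1
    obtain ⟨n', h1, h2⟩ := exists_stage R₀ R₁ n
    obtain ⟨-, -, e5, e6⟩ := eps_facts hδ n'
    have h6 := mul_le_mul_of_nonneg_left (u_anti h1) hδ.le
    refine ⟨n', fun j x ⟨hx, hx'⟩ => ?_⟩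
    obtain ⟨h7, h8⟩ := hl j
  · obtain ⟨b, hb, hx'⟩ := mem_iUnion₂.1 hx'
    have hb' := ((hL j b).1 hb).1
    refine ⟨mem_iInter₂.2 fun a ha => ?_, ?_⟩
    · exact (oB hδ th fun _ => a).anti j (show n ≤ n' by omega)
        (hs' j n' a ha ▸ mem_iInter₂.1 hx a ha)
    · have h10 := h.hA1 x (h2.trans_lt hx'.2) (e j) b hb'
      have h11 : t j - δ * u n' < D.ν b x := by
        simpa only [th', if_pos hb', mem_ofPred_eq] using hx'.1
      have h12 : t j - δ * u n' < min 1 (D.ν b x) := lt_min (by linarith) h11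
      exact show t j - δ * u n < D.h (e j) x by linarith
  · obtain ⟨a₀, h4⟩ := (hs j).1
    have hx1 : t j - δ * u n' < D.h (e j) x := hx'
    have hx2 := mem_iInter₂.1 hx a₀ h4
    have hn : (n : ℝ) ≤ n' := Nat.cast_le.2 (by omega)
    obtain ⟨b, hb, h10⟩ := h.hA2 x (h2.trans_lt hx2.2) (e j) (by linarith)
    have h11 : t j - δ * u n < D.ν b x := by linarith
    refine ⟨mem_iInter₂.2 fun a ha => ?_, mem_iUnion₂.2 ⟨b, (hL j b).2 ⟨hb, fun a ha => ?_⟩, ?_, ?_⟩⟩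
    · rw [hs' j n a ha]
      exact (oB hδ th fun _ => a).anti j (show n ≤ n' by omega) (mem_iInter₂.1 hx a ha)
    · exact hB.adj x (B_far hx2) a b (by linarith [B_gt hδ (mem_iInter₂.1 hx a ha), (ht j a).1])
        (by linarith)
    · simpa only [th', if_pos hb, mem_ofPred_eq] using h11
    · have : R₀ + n' < D.r x := hx2.2
      exact show R₀ + n < D.r x by linarith

/-- windows -/
theorem Ok.pacWin [Nontrivial k] (H : D.Ok k q m C) (hδ : 0 < δ) (hB : D.Big δ R₀) (hC : 1 ≤ C)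
    {J : Type} (e : J → E) (th : J → I → ℝ) (t t' : J → ℝ) (s : J → Finset I)
    (ht : ∀ j, Th δ C (th j)) (ht1 : ∀ j a, 2 + δ ≤ th j a)
    (hl : ∀ j, 2 * δ ≤ t j ∧ t j ≤ t' j ∧ t' j ≤ 1 - 2 * δ)
    (hs : ∀ j, (s j).Nonempty ∧ Cq D.R (s j) ∧ (s j : Set I) ⊆ D.Tw (e j)) :
    PAc k fun j n => ((⋂ a ∈ s j, D.B δ R₀ (th j) a n) ∩ D.Lo δ (e j) (t' j) n) ∩
        ((⋂ a ∈ s j, D.B δ R₀ (th j) a n) ∩ D.Hi δ (e j) (t j) n) := by
  refine PAc.inter ((oX hδ th s).inter (oLo hδ e t')) ((oX hδ th s).inter (oHi hδ e t))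
    (H.pacLo hδ e th t' s ht ht1 (fun j => ⟨by linarith [(hl j).1, (hl j).2.1], (hl j).2.2⟩)
      fun j => ⟨(hs j).1, (hs j).2.1, (H.dis _).mono_left (hs j).2.2⟩)
    (H.pacHi hδ hB hC e th t s ht (fun j => ⟨(hl j).1, by linarith [(hl j).2.2, (hl j).2.1]⟩) hs)
    ((H.pac0 (R₀ := R₀) hδ th s ht fun j => ⟨(hs j).1, (hs j).2.1⟩).congr fun j n => ?_)
  rw [← inter_union_distrib_left]
  refine inter_eq_left.2 fun x _ => ?_
  have := (eps_facts hδ n).2.2.1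
  have := (hl j).2.1
  by_cases h : D.h (e j) x < t' j + δ * u n
  · exact Or.inl h
  · exact Or.inr (show t j - δ * u n < D.h (e j) x by linarith)

variable (D δ) in
/-- a region: upper bounds on the edges of `Jm`, lower bounds on the edges of `Jp` -/
def Reg (Jm Jp : Set E) (hi lo : E → ℝ) (n : ℕ) : Set X :=
  {x | (∀ e ∈ Jm, x ∈ D.Lo δ e (hi e) n) ∧ ∀ e ∈ Jp, x ∈ D.Hi δ e (lo e) n}

variable (D) in
/-- the labels of a region -/
def Mod (Jm Jp : Set E) : Set I := {a | (∀ e ∈ Jm, a ∉ D.Aw e) ∧ ∀ e ∈ Jp, a ∈ D.Tw e ∪ D.Aw e}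

variable (D δ) in
/-- admissible regions -/
structure Adm (Jm Jp : Set E) (hi lo : E → ℝ) : Prop where
  fm : Jm.Finite
  fp : Jp.Finite
  bm : ∀ e ∈ Jm, 2 * δ ≤ hi e ∧ hi e ≤ 1 - 2 * δ
  bp : ∀ e ∈ Jp, 2 * δ ≤ lo e ∧ lo e ≤ 1 - 2 * δ
  le : ∀ e ∈ Jm, e ∈ Jp → lo e ≤ hi e
  dj : ∀ e ∈ Jm ∪ Jp, ∀ e' ∈ Jm ∪ Jp, e ≠ e' → Disjoint (D.Tw e) (D.Tw e')

variable {Jm Jp : Set E} {hi lo : E → ℝ}

theorem oReg (hδ : 0 < δ) {J : Type} {Jm Jp : J → Set E} {hi lo : J → E → ℝ}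
    (A : ∀ j, D.Adm δ (Jm j) (Jp j) (hi j) (lo j)) :
    OSys fun j => D.Reg δ (Jm j) (Jp j) (hi j) (lo j) :=
  ⟨fun j n => by
    have : D.Reg δ (Jm j) (Jp j) (hi j) (lo j) n =
        (⋂ e ∈ Jm j, D.Lo δ e (hi j e) n) ∩ ⋂ e ∈ Jp j, D.Hi δ e (lo j e) n := by
      ext x; simp [Reg]
    rw [this]
    exact ((A j).fm.isOpen_biInter fun e _ => (oLo hδ id (hi j)).op e n).inter
      ((A j).fp.isOpen_biInter fun e _ => (oHi hδ id (lo j)).op e n),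
  fun j _ _ h _ hx => ⟨fun e he => (oLo hδ id (hi j)).anti e h (hx.1 e he),
    fun e he => (oHi hδ id (lo j)).anti e h (hx.2 e he)⟩⟩

/-- a label off the wall makes the conditions of this wall void -/
theorem Ok.void (H : D.Ok k q m C) (A : D.Adm δ Jm Jp hi lo) (hδ : 0 < δ) (hB : D.Big δ R₀)
    {th : I → ℝ} (h1 : ∀ a, 1 + δ ≤ th a) {a : I} (ha : a ∈ D.Mod Jm Jp) {n : ℕ} {x : X}
    (hx : x ∈ D.B δ R₀ th a n) {e : E} (he : a ∉ D.Tw e) :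
    (e ∈ Jm → x ∈ D.Lo δ e (hi e) n) ∧ (e ∈ Jp → x ∈ D.Hi δ e (lo e) n) := by
  have h2 := B_gt hδ hx
  have h3 := h1 a
  have e3 := (eps_facts hδ n).2.2.1
  refine ⟨fun hm => by_contra fun hn => ?_, fun hp => ?_⟩
  · have h4 : hi e + δ * u n ≤ D.h e x := not_lt.1 hn
    obtain ⟨h5, h6⟩ := A.bm e hm
    obtain ⟨b, hb, h7⟩ := hB.hA2 x (B_far hx) e (by linarith)
    exact (H.sep e a b (hB.adj x (B_far hx) a b (by linarith) (by linarith)) hb).elim he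
      (ha.1 e hm)
  · have h4 := hB.hA1 x (B_far hx) e a ((ha.2 e hp).resolve_left he)
    rw [min_eq_left (by linarith)] at h4
    have := (A.bp e hp).2
    exact show lo e - δ * u n < D.h e x by linarith

open Classical in
/-- a family which is covered by two pro-acyclic families -/
theorem _root_.Crest.Agent.N255.Tp.PAc.cases {κ J : Type} [Preorder κ] [IsDirectedOrder κ]
    {W : J → κ → Set X} (o : OSys W) (p : J → Prop) (h1 : PAc k fun j : {j // p j} => W j.1)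
    (h2 : PAc k fun j : {j // ¬ p j} => W j.1) : PAc k W := by
  refine ⟨fun j => if h : p j then h1.ne ⟨j, h⟩ else h2.ne ⟨j, h⟩, fun a => ?_⟩
  obtain ⟨b, hb, a1, a2⟩ := PAc.both (o.comp _) (o.comp _) h1 h2 a
  exact ⟨b, hb, fun j => if h : p j then a1 ⟨j, h⟩ else a2 ⟨j, h⟩⟩

/-- **the label cover of the far part of a region is pro-acyclic** -/
theorem Ok.pacReg [Nontrivial k] (H : D.Ok k q m C) (hδ : 0 < δ) (hB : D.Big δ R₀) {th : I → ℝ}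
    (ht : Th δ C th) (h1 : ∀ a, 2 + δ ≤ th a) (hC : 1 ≤ C) {J : Type} {Jm Jp : J → Set E}
    {hi lo : J → E → ℝ} (A : ∀ j, D.Adm δ (Jm j) (Jp j) (hi j) (lo j)) (s : J → Finset I)
    (hs : ∀ j, (s j).Nonempty ∧ Cq D.R (s j) ∧ (s j : Set I) ⊆ D.Mod (Jm j) (Jp j)) :
    PAc k fun j n => (⋂ a ∈ s j, D.B δ R₀ th a n) ∩ D.Reg δ (Jm j) (Jp j) (hi j) (lo j) n := by
  have o : OSys fun j n => (⋂ a ∈ s j, D.B δ R₀ th a n) ∩ D.Reg δ (Jm j) (Jp j) (hi j) (lo j) n :=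
    (oX hδ (fun _ => th) s).inter (oReg hδ A)
  have h1' : ∀ a, 1 + δ ≤ th a := fun a => by linarith [h1 a]
  have key : ∀ j, ∀ e ∈ Jm j ∪ Jp j, (s j : Set I) ⊆ D.Tw e → ∀ n x,
      x ∈ (⋂ a ∈ s j, D.B δ R₀ th a n) → (x ∈ D.Reg δ (Jm j) (Jp j) (hi j) (lo j) n ↔
        (e ∈ Jm j → x ∈ D.Lo δ e (hi j e) n) ∧ (e ∈ Jp j → x ∈ D.Hi δ e (lo j e) n)) := by
    intro j e he hT n x hx
    refine ⟨fun h => ⟨h.1 _, h.2 _⟩, fun h => ?_⟩
    obtain ⟨a, ha⟩ := (hs j).1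
    have hv := fun e' (he' : e' ∈ Jm j ∪ Jp j) (hne : e' ≠ e) =>
      H.void (A j) hδ hB h1' ((hs j).2.2 ha) (mem_iInter₂.1 hx a ha)
        (disjoint_right.1 ((A j).dj e' he' _ he hne) (hT ha))
    refine ⟨fun e' he' => ?_, fun e' he' => ?_⟩ <;> by_cases h' : e' = e
    · subst h'; exact h.1 he'
    · exact (hv e' (Or.inl he') h').1 he'
    · subst h'; exact h.2 he'
    · exact (hv e' (Or.inr he') h').2 he'
  refine PAc.cases o (fun j => ∃ e, (e ∈ Jm j ∧ e ∈ Jp j) ∧ (s j : Set I) ⊆ D.Tw e) ?_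
    (PAc.cases (o.comp _) (fun j => ∃ e ∈ Jm j.1, (s j.1 : Set I) ⊆ D.Tw e) ?_
      (PAc.cases ((o.comp _).comp _) (fun j => ∃ e ∈ Jp j.1.1, (s j.1.1 : Set I) ⊆ D.Tw e) ?_ ?_))
  · choose e he hT using fun j : {j // ∃ e, (e ∈ Jm j ∧ e ∈ Jp j) ∧ (s j : Set I) ⊆ D.Tw e} => j.2
    refine (H.pacWin hδ hB hC e (fun _ => th) (fun j => lo j.1 (e j)) (fun j => hi j.1 (e j))
      (fun j => s j.1) (fun _ => ht) (fun _ => h1)
      (fun j => ⟨((A _).bp _ (he j).2).1, (A _).le _ (he j).1 (he j).2, ((A _).bm _ (he j).1).2⟩)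
      fun j => ⟨(hs _).1, (hs _).2.1, hT j⟩).congr fun j n => ?_
    have := key j.1 _ (Or.inl (he j).1) (hT j) n
    ext x
    exact ⟨fun h => ⟨⟨h.1, ((this x h.1).1 h.2).1 (he j).1⟩, h.1, ((this x h.1).1 h.2).2 (he j).2⟩,
      fun h => ⟨h.1.1, (this x h.1.1).2 ⟨fun _ => h.1.2, fun _ => h.2.2⟩⟩⟩
  · choose e he hT using fun j : {j : {j // ¬ ∃ e, (e ∈ Jm j ∧ e ∈ Jp j) ∧
      (s j : Set I) ⊆ D.Tw e} // ∃ e ∈ Jm j.1, (s j.1 : Set I) ⊆ D.Tw e} => j.2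
    refine (H.pacLo (R₀ := R₀) hδ e (fun _ => th) (fun j => hi j.1.1 (e j))
      (fun j => s j.1.1) (fun _ => ht) (fun _ => h1)
      (fun j => ⟨by linarith [((A _).bm _ (he j)).1], ((A _).bm _ (he j)).2⟩)
      fun j => ⟨(hs _).1, (hs _).2.1, (H.dis _).mono_left (hT j)⟩).congr fun j n => ?_
    have := key j.1.1 _ (Or.inl (he j)) (hT j) n
    ext x
    exact ⟨fun h => ⟨h.1, ((this x h.1).1 h.2).1 (he j)⟩, fun h => ⟨h.1, (this x h.1).2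
      ⟨fun _ => h.2, fun h' => absurd ⟨_, ⟨he j, h'⟩, hT j⟩ j.1.2⟩⟩⟩
  · choose e he hT using fun j : {j : {j : {j // ¬ ∃ e, (e ∈ Jm j ∧ e ∈ Jp j) ∧
      (s j : Set I) ⊆ D.Tw e} // ¬ ∃ e ∈ Jm j.1, (s j.1 : Set I) ⊆ D.Tw e} //
      ∃ e ∈ Jp j.1.1, (s j.1.1 : Set I) ⊆ D.Tw e} => j.2
    refine (H.pacHi hδ hB hC e (fun _ => th) (fun j => lo j.1.1.1 (e j))
      (fun j => s j.1.1.1) (fun _ => ht)
      (fun j => ⟨((A _).bp _ (he j)).1, by linarith [((A _).bp _ (he j)).2]⟩)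
      fun j => ⟨(hs _).1, (hs _).2.1, hT j⟩).congr fun j n => ?_
    have := key j.1.1.1 _ (Or.inr (he j)) (hT j) n
    ext x
    exact ⟨fun h => ⟨h.1, ((this x h.1).1 h.2).2 (he j)⟩, fun h => ⟨h.1, (this x h.1).2
      ⟨fun h' => absurd ⟨_, h', hT j⟩ j.1.2, fun _ => h.2⟩⟩⟩
  · refine (H.pac0 (R₀ := R₀) hδ (fun _ => th) (fun j => s j.1.1.1) (fun _ => ht)
      fun j => ⟨(hs _).1, (hs _).2.1⟩).congr fun j n => ?_
    refine inter_eq_left.2 fun x hx => ⟨fun e he => ?_, fun e he => ?_⟩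
    · obtain ⟨a, ha, ha'⟩ := not_subset.1 fun h => j.1.2 ⟨e, he, h⟩
      exact (H.void (A _) hδ hB h1' ((hs _).2.2 ha) (mem_iInter₂.1 hx a ha) ha').1 he
    · obtain ⟨a, ha, ha'⟩ := not_subset.1 fun h => j.2 ⟨e, he, h⟩
      exact (H.void (A _) hδ hB h1' ((hs _).2.2 ha) (mem_iInter₂.1 hx a ha) ha').2 he

end FarD

end Crest.Agent.N255.Pa

end
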