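import Crest.Agent.N255.En.Pa2
import Crest.Agent.N255.En.Defs

/-!
# Row 255 (helper88): the label cover of the far part of an admissible region is pro-acyclic
-/

set_option autoImplicit false
set_option linter.unusedSectionVars false
open Set Filter Topology

noncomputable section

namespace Crest.Agent.N255.En

open Tp Nv Pt Lv Pa

variable {ι S : Type} [DecidableEq ι] [MulAction (FreeGroup ι) S] {w : Wl ι S}
  {F : Subgroup (FreeGroup ι)} {X : Type} [TopologicalSpace X] [MulAction F X] {N : Lev w F X}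
  {k : Type} [CommRing k]

/-- the clamped level -/
def Lev.cl (N : Lev w F X) (e : Ed ι) : C(X, ℝ) :=
  ⟨fun x => max 0 (min 1 (N.s e x)), by fun_prop⟩

theorem Lev.cl_lt {e : Ed ι} {x : X} {t : ℝ} (h0 : 0 < t) (h1 : t ≤ 1) :
    N.cl e x < t ↔ N.s e x < t := by
  change max 0 (min 1 (N.s e x)) < t ↔ _
  rw [max_lt_iff, min_lt_iff]
  exact ⟨fun h => h.2.resolve_left (not_lt.2 h1), fun h => ⟨h0, Or.inr h⟩⟩

theorem Lev.lt_cl {e : Ed ι} {x : X} {t : ℝ} (h0 : 0 ≤ t) (h1 : t < 1) :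
    t < N.cl e x ↔ t < N.s e x := by
  change t < max 0 (min 1 (N.s e x)) ↔ _
  rw [lt_max_iff, lt_min_iff]
  exact ⟨fun h => (h.resolve_left (not_lt.2 h0)).2, fun h => Or.inr ⟨h1, h⟩⟩

namespace Tl

variable (L : Tl N k)

/-- the abstract far data -/
def fd : FarD X S {e : Ed ι // pos e} :=
  ⟨Cl w.Γ, L.ν, N.r, fun e => N.cl e.1, fun e => w.T e.1, fun e => w.B e.1⟩

theorem big (ε : ℝ) (hε : 0 < ε) : ∃ R₀, L.fd.Big ε R₀ := by
  obtain ⟨R₁, h1⟩ := L.adj ε hε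
  obtain ⟨R₂, h2⟩ := L.hA1 ε hε
  obtain ⟨R₃, h3⟩ := L.hA2 ε hε
  refine ⟨max R₁ (max R₂ R₃), fun x hx a b => h1 x a b ((le_max_left _ _).trans_lt hx),
    fun x hx e b hb => ?_, fun x hx e h => ?_⟩
  · have h := h2 e.1 x b e.2 (((le_max_left _ _).trans (le_max_right _ _)).trans_lt hx) hb
    change min 1 (L.ν b x) ≤ max 0 (min 1 (N.s e.1 x)) + ε
    rcases le_total 1 (N.s e.1 x) with h' | h'
    · rw [min_eq_left h', max_eq_right zero_le_one]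
      linarith [min_le_left 1 (L.ν b x)]
    · rwa [min_eq_right h']
  · have h4 : ε < min 1 (N.s e.1 x) := (lt_max_iff.1 h).resolve_left (not_lt.2 hε.le)
    obtain ⟨b, hb, h5⟩ := h3 e.1 x e.2 (((le_max_right _ _).trans (le_max_right _ _)).trans_lt hx)
      (lt_min_iff.1 h4).2
    refine ⟨b, hb, ?_⟩
    change max 0 (min 1 (N.s e.1 x)) < _
    rwa [max_eq_right (hε.le.trans h4.le)]

theorem ok (C : ℝ) : ∃ m, L.fd.Ok k 4 m C := by
  obtain ⟨m, hm⟩ := w.nev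
  refine ⟨m, Cl.rfl, fun _ _ => Cl.symm, w.dim, fun ε R₀ hε => ?_, fun a c R₀ _ => ?_,
    fun ε R₀ hε => ?_, fun e a c R₀ ε _ hε ha => ?_, L.big, fun e a b h hb => ?_,
    fun e => disjoint_left.2 (w.TB e.1), fun e s h1 h2 h3 => hm e.1 s h1 h3 h2⟩
  · obtain ⟨R₁, h⟩ := L.pa0 C ε R₀ hε
    exact ⟨R₁, fun s th h1 h2 h3 => h s h1 h2 th fun a _ => ⟨(h3 a).1, by linarith [(h3 a).2]⟩⟩
  · obtain ⟨x, h1, h2, -⟩ := L.ne a c 1 R₀ one_pos
    exact ⟨x, h2, h1⟩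
  · obtain ⟨R₁, h⟩ := L.pa1 C ε R₀ hε
    refine ⟨R₁, fun e s th t h1 h2 h3 h4 h5 h6 h7 => ?_⟩
    refine acy_mono (h e.1 e.2 t h6 (by linarith) s h1 h2 th fun a ha => ⟨(h4 a).1,
      by linarith [(h4 a).2], disjoint_left.1 h3 ha, fun hT => by linarith [h5 a ha hT]⟩)
      (inter_subset_inter_right _ fun x hx => ?_) (inter_subset_inter_right _ fun x hx => ?_)
    · exact (Lev.cl_lt (by linarith) (by linarith)).1 hx
    · exact (Lev.cl_lt (by linarith) (by linarith)).2 hx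
  · obtain ⟨R₁, hB⟩ := L.big (ε / 3) (by linarith)
    obtain ⟨x, h1, h2, h3⟩ := L.ne a c (ε / 3) (max R₀ R₁) (by linarith)
    refine ⟨x, h2, (le_max_left _ _).trans_lt h1, by_contra fun hn => ?_⟩
    have h4 : ε ≤ L.fd.h e x := not_lt.1 hn
    obtain ⟨b, hb, h5⟩ := hB.hA2 x ((le_max_right _ _).trans_lt h1) e (by linarith)
    have h6 : L.fd.ν b x < ε / 3 := h3 b fun h => ha (h ▸ hb)
    linarith
  · rcases w.tri e.1 a with h' | h' | h'
    exacts [Or.inl h', Or.inr h', absurd h.symm (w.BB e.1 b a hb h')]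

/-- the retreating regions -/
def _root_.Crest.Agent.N255.En.Lev.Rn (N : Lev w F X) (δ R₀ : ℝ) (J : Finset (Ed ι))
    (t : Ed ι → ℝ) (n : ℕ) : Set X := N.Reg J (fun e => t e + δ * u n) (R₀ + n)

/-- the label cover of the retreating regions -/
def Vc (δ c R₀ : ℝ) (J : Finset (Ed ι)) (t : Ed ι → ℝ) (a : S) (n : ℕ) : Set X :=
  {x | c - δ * u n < L.ν a x} ∩ N.Rn δ R₀ J t n

/-- thresholds with margin `δ` -/
def _root_.Crest.Agent.N255.En.Mg (δ : ℝ) (J : Finset (Ed ι)) (t : Ed ι → ℝ) : Prop :=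
  ∀ e ∈ J, 2 * δ ≤ t e ∧ t e + 2 * δ ≤ 1 ∧ (rev e ∈ J → 1 ≤ t e + t (rev e))

theorem _root_.Crest.Agent.N255.En.Adm.mg {J : Finset (Ed ι)} {t t' : Ed ι → ℝ} (h : Adm J t t') :
    ∃ δ, 0 < δ ∧ δ ≤ 1 ∧ Mg δ J t ∧ ∀ e ∈ J, t e + δ ≤ t' e := by
  have h1 : ∀ᶠ δ in 𝓝[>] (0 : ℝ), ∀ e ∈ J, δ < min (t e / 2) (min ((1 - t e) / 2) (t' e - t e)) := by
    refine (eventually_all_finset J).2 fun e he => mem_nhdsWithin_of_mem_nhds (Iio_mem_nhds ?_)
    obtain ⟨a, b, c, -⟩ := h e he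
    exact lt_min (by linarith) (lt_min (by linarith) (by linarith))
  obtain ⟨δ, ⟨h2, h3⟩, h4⟩ := ((h1.and (mem_nhdsWithin_of_mem_nhds (Iio_mem_nhds one_pos))).and
    self_mem_nhdsWithin).exists
  refine ⟨δ, h4, le_of_lt h3, fun e he => ?_, fun e he => ?_⟩ <;>
    obtain ⟨a, b, c⟩ : δ < t e / 2 ∧ δ < (1 - t e) / 2 ∧ δ < t' e - t e := by
      simpa only [lt_min_iff] using h2 e he
  · exact ⟨by linarith, by linarith, fun h' => ((h e he).2.2.2 h').le⟩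
  · linarith

theorem _root_.Crest.Agent.N255.En.Wl.T_disj (w : Wl ι S) {e e' : Ed ι} (h : e' ≠ e)
    (h' : e' ≠ rev e) : Disjoint (w.T e) (w.T e') := by
  have key : ∀ e e', Bey e e' → Disjoint (w.T e) (w.T e') := fun e e' h =>
    disjoint_left.2 fun a ha ha' => w.TB e a ha (w.bey e e' h (Or.inl ha'))
  rcases bey_total e e' with h1 | h1 | h1 | h1 | h1 | h1
  · exact absurd h1 h
  · exact absurd h1 h'
  all_goals simpa only [w.T_rev] using key _ _ h1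

theorem fadm {δ : ℝ} {J : Finset (Ed ι)} {t : Ed ι → ℝ} (h : Mg δ J t) :
    L.fd.Adm δ {e | e.1 ∈ J} {e | rev e.1 ∈ J} (fun e => t e.1) fun e => 1 - t (rev e.1) :=
  ⟨J.finite_toSet.preimage Subtype.val_injective.injOn,
    J.finite_toSet.preimage (f := fun e : {e : Ed ι // pos e} => rev e.1) fun a _ b _ hab =>
      Subtype.ext (by simpa using congrArg rev hab),
    fun e he => ⟨(h _ he).1, by linarith [(h _ he).2.1]⟩,
    fun e he => ⟨by linarith [(h _ he).2.1], by linarith [(h _ he).1]⟩,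
    fun e he he' => by linarith [(h _ he).2.2 he'],
    fun e _ e' _ hne => w.T_disj (fun h => hne (Subtype.ext h.symm))
      fun h => (pos_rev _).1 (h ▸ e'.2) e.2⟩

theorem fmod {J : Finset (Ed ι)} :
    w.Mod J ⊆ L.fd.Mod {e | e.1 ∈ J} {e | rev e.1 ∈ J} := fun a ha =>
  ⟨fun e he => ha _ he, fun e he => by
    rcases w.tri e.1 a with h | h | h
    exacts [Or.inl h, Or.inr h, absurd h (ha _ he)]⟩

theorem freg {δ : ℝ} (hδ : 0 < δ) {J : Finset (Ed ι)} {t : Ed ι → ℝ} (h : Mg δ J t) (n : ℕ)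
    (x : X) : x ∈ L.fd.Reg δ {e | e.1 ∈ J} {e | rev e.1 ∈ J} (fun e => t e.1)
      (fun e => 1 - t (rev e.1)) n ↔ ∀ e ∈ J, N.s e x < t e + δ * u n := by
  obtain ⟨-, -, e3, e4⟩ := FarD.eps_facts hδ n
  have h1 : ∀ e ∈ J, (N.cl e x < t e + δ * u n ↔ N.s e x < t e + δ * u n) := fun e he =>
    Lev.cl_lt (by linarith [(h e he).1]) (by linarith [(h e he).2.1])
  have h2 : ∀ e, rev e ∈ J → (1 - t (rev e) - δ * u n < N.cl e x ↔
      N.s (rev e) x < t (rev e) + δ * u n) := fun e he => by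
    rw [Lev.lt_cl (by linarith [(h _ he).2.1]) (by linarith [(h _ he).1]), N.s_rev]
    constructor <;> intro <;> linarith
  refine ⟨fun hx e he => ?_, fun hx => ⟨fun e he => (h1 _ he).2 (hx _ he),
    fun e he => (h2 _ he).2 (hx _ he)⟩⟩
  by_cases hp : pos e
  · exact (h1 e he).1 (hx.1 ⟨e, hp⟩ he)
  · have he' : rev (rev e) ∈ J := by rwa [rev_rev]
    have := (h2 _ he').1 (hx.2 ⟨rev e, (pos_rev e).2 hp⟩ he')
    rwa [rev_rev] at this

theorem _root_.Crest.Agent.N255.En.Lev.oRn {δ : ℝ} (hδ : 0 < δ) (R₀ : ℝ) {P : Type}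
    (J : P → Finset (Ed ι)) (t : P → Ed ι → ℝ) : OSys fun p => N.Rn δ R₀ (J p) (t p) :=
  ⟨fun p n => by
    have : N.Rn δ R₀ (J p) (t p) n = {x | R₀ + n < N.r x} ∩
        ⋂ e ∈ J p, {x | N.s e x < t p e + δ * u n} := by
      ext x; simp [Lev.Rn, Lev.Reg]
    rw [this]
    exact (isOpen_lt continuous_const N.r.continuous).inter
      (isOpen_biInter_finset fun e _ => isOpen_lt (N.s e).continuous continuous_const),
  fun p n n' h x hx => by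
    have h1 := mul_le_mul_of_nonneg_left (u_anti h) hδ.le
    have h2 : (n : ℝ) ≤ n' := Nat.cast_le.2 h
    exact ⟨by linarith [hx.1], fun e he => by linarith [hx.2 e he]⟩⟩

theorem oVc {δ : ℝ} (hδ : 0 < δ) (c R₀ : ℝ) {P : Type} (J : P → Finset (Ed ι))
    (t : P → Ed ι → ℝ) (a : P → S) : OSys fun p => L.Vc δ c R₀ (J p) (t p) (a p) :=
  OSys.inter (U := fun p n => {x | c - δ * u n < L.ν (a p) x})
    ⟨fun _ _ => isOpen_lt continuous_const (L.ν _).continuous, fun p n n' h x hx => by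
      have h1 := mul_le_mul_of_nonneg_left (u_anti h) hδ.le
      have h2 : c - δ * u n' < L.ν (a p) x := hx
      exact show c - δ * u n < L.ν (a p) x by linarith⟩ (Lev.oRn hδ R₀ J t)

/-- **the label cover is pro-acyclic**, uniformly in the region -/
theorem pac [Nontrivial k] {δ c : ℝ} (hδ : 0 < δ) (hc : 2 + 2 * δ ≤ c) : ∃ R₁, ∀ R₀, R₁ ≤ R₀ →
    ∀ {P : Type} (J : P → Finset (Ed ι)) (t : P → Ed ι → ℝ) (s : P → Finset S),
      (∀ p, Mg δ (J p) (t p)) →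
      (∀ p, (s p).Nonempty ∧ Cq (Cl w.Γ) (s p) ∧ (s p : Set S) ⊆ w.Mod (J p)) →
      PAc k fun p n => ⋂ a ∈ s p, L.Vc δ c R₀ (J p) (t p) a n := by
  obtain ⟨m, H⟩ := L.ok c
  obtain ⟨R₁, hB⟩ := L.big _ hδ
  refine ⟨R₁, fun R₀ hR P J t s hA hs => (H.pacReg hδ (hB.mono hR) (th := fun _ => c)
    (fun _ => ⟨by linarith, le_rfl⟩) (fun _ => by linarith) (by linarith)
    (fun p => L.fadm (hA p)) s
    fun p => ⟨(hs p).1, (hs p).2.1, (hs p).2.2.trans L.fmod⟩).congr fun p n => ?_⟩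
  obtain ⟨a, ha⟩ := (hs p).1
  ext x
  rw [mem_inter_iff, L.freg hδ (hA p), mem_iInter₂, mem_iInter₂]
  exact ⟨fun h => ⟨fun b hb => ⟨(h b hb).1, (h b hb).2.1⟩, (h a ha).2.2⟩,
    fun h b hb => ⟨(h.1 b hb).1, (h.1 b hb).2, h.2⟩⟩

/-- the same for unions -/
theorem pacU [Nontrivial k] {δ c : ℝ} (hδ : 0 < δ) (hc : 2 + 2 * δ ≤ c) : ∃ R₁, ∀ R₀, R₁ ≤ R₀ →
    ∀ {P : Type} (J : P → Finset (Ed ι)) (t : P → Ed ι → ℝ) (s : P → Finset S),
      (∀ p, Mg δ (J p) (t p)) →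
      (∀ p, (s p).Nonempty ∧ Cq (Cl w.Γ) (s p) ∧ (s p : Set S) ⊆ w.Mod (J p)) →
      PAc k fun p n => ⋃ a ∈ s p, L.Vc δ c R₀ (J p) (t p) a n := by
  obtain ⟨R₁, h⟩ := L.pac hδ hc
  refine ⟨R₁, fun R₀ hR P J t s hA hs => (PAc.union_of_inter (k := k) (m := 4)
    (C := fun p s => s.Nonempty ∧ Cq (Cl w.Γ) s ∧ (s : Set S) ⊆ w.Mod (J p))
    (B := fun p a => L.Vc δ c R₀ (J p) (t p) a)
    ⟨fun _ _ h => h.1, fun _ _ _ h ht hn => ⟨hn, h.2.1.mono ht, subset_trans ht h.2.2⟩,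
      fun _ s h => w.dim s h.2.1⟩
    (L.oVc hδ c R₀ (fun p : P × S => J p.1) (fun p => t p.1) fun p => p.2)
    (h R₀ hR _ _ _ (fun p => hA p.1.1) fun p => p.2)).comp fun p => ⟨(p, s p), hs p⟩⟩

/-- the cover property: far points of the region lie in the set of their label -/
theorem mem_Vc {δ : ℝ} (c : ℝ) (hδ : 0 < δ) : ∃ R₁, ∀ R₀, R₁ ≤ R₀ → ∀ J t, Mg δ J t → ∀ n,
    ∀ x ∈ N.Rn δ R₀ J t n, N.lab x ∈ w.Mod J ∧ x ∈ L.Vc δ c R₀ J t (N.lab x) n := by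
  obtain ⟨R₁, h1⟩ := L.deep c
  obtain ⟨R₂, h2⟩ := N.lab_side δ hδ
  refine ⟨max R₁ R₂, fun R₀ hR J t hA n x hx => ?_⟩
  obtain ⟨-, -, e3, e4⟩ := FarD.eps_facts hδ n
  have h3 : max R₁ R₂ < N.r x := by
    have : (0 : ℝ) ≤ n := Nat.cast_nonneg n
    linarith [hx.1]
  refine ⟨fun e he => h2 e x ((le_max_right _ _).trans_lt h3) ?_, ?_, hx⟩
  · linarith [hx.2 e he, (hA e he).2.1]
  · have := h1 x ((le_max_left _ _).trans_lt h3)
    exact show c - δ * u n < L.ν (N.lab x) x by linarith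

/-- sets of the cover which meet have adjacent labels -/
theorem Vc_adj {δ c : ℝ} (hδ : 0 < δ) (hc : 1 + δ ≤ c) : ∃ R₁, ∀ R₀, R₁ ≤ R₀ → ∀ J t a b n x,
    x ∈ L.Vc δ c R₀ J t a n → x ∈ L.Vc δ c R₀ J t b n → Cl w.Γ a b := by
  obtain ⟨R₁, h1⟩ := L.adj 1 one_pos
  refine ⟨R₁, fun R₀ hR J t a b n x ha hb => ?_⟩
  obtain ⟨-, -, e3, e4⟩ := FarD.eps_facts hδ n
  have h2 : c - δ * u n < L.ν a x := ha.1
  have h3 : c - δ * u n < L.ν b x := hb.1
  have : (0 : ℝ) ≤ n := Nat.cast_nonneg n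
  exact h1 x a b (by linarith [ha.2.1]) (by linarith) (by linarith)

/-- a small set which contains a far point `x` is deep behind the label of `x` -/
theorem small_deep (c : ℝ) : ∃ R₁, ∀ U ∈ N.cv, ∀ x ∈ U, ∀ y ∈ U, R₁ < N.r x → R₁ < N.r y →
    c < L.ν (N.lab x) y := by
  obtain ⟨R₁, h1⟩ := L.deep (c + 1)
  obtain ⟨R₂, h2⟩ := L.slow c 1 one_pos
  refine ⟨max R₁ R₂, fun U hU x hx y hy h3 h4 => by_contra fun hn => ?_⟩
  have h5 := h2 (N.lab x) U hU y hy x hx ((le_max_right _ _).trans_lt h4) (not_lt.1 hn)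
  have h6 := h1 x ((le_max_left _ _).trans_lt h3)
  linarith [not_lt.1 hn]

end Tl

end Crest.Agent.N255.En

end
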