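import Crest.Agent.N255.En.Cm

/-!
# Row 255 (helper18): the degree of every small wall beyond a big radius
-/

set_option autoImplicit false
open Set

noncomputable section

namespace Crest.Agent.N255.En.Lev
open Tp Nv Pt Lv Wn Cs

variable {ι S : Type} [DecidableEq ι] [MulAction (FreeGroup ι) S] {w : Wl ι S}
  {F : Subgroup (FreeGroup ι)} {X : Type} [TopologicalSpace X] [MulAction F X] {N : Lev w F X}
  {M : Md w} {k : Type} [Field k] {ε R₀ R a b : ℝ} {e : Ed ι} {c : Ch k 3 X}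

/-- the far class, with coefficients in `k`, is closed where the integral one is -/
theorem mc_Z_of {P : Tp.Sb X} (hP : P.Le (On (hi N.r R))) (h : N.mz M R e ∈ P.Z ℤ ℤ 1) :
    mc k N M e ∈ P.Z k k 1 := fun σ hσ => by
  have h1 := congrArg (Int.cast : ℤ → k) (h σ hσ)
  have h2 : ∀ i j, (N.mz M R e (e2 σ i j) : k) = mc k N M e (e2 σ i j) := fun i j =>
    mz_far k ((range_sub σ _).trans (hP 2 hσ))
  simp only [cob_d1, d1, Int.cast_add, Int.cast_sub, h2, Int.cast_zero] at h1 ⊢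
  exact h1

theorem Big.mc_fw (hB : N.Big ε R₀) (hR : R₀ ≤ R) (h0 : ε ≤ a) (h2 : b ≤ 1 - ε) :
    mc k N M e ∈ (N.Sb (Wn.fw (N.s e) N.r a b R)).Z k k 1 ∧
      mc k N M (rev e) ∈ (N.Sb (Wn.fw (N.s e) N.r a b R)).Z k k 1 := by
  have q := (hB.mono le_rfl hR).fw (e := e) hR h0 h2
  exact ⟨mc_Z_of (q.trans Lb_far) (Sb.Z_mono q mz_Z_T), mc_Z_of (q.trans Lb_far) (Sb.Z_mono q mz_Z_T')⟩

variable {O : Ori k 3 X} {u : kˣ}

/-- the boundary of a small wall is labelled by the wall -/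
theorem Big.bd_lb (hB : N.Big ε R₀) (hR : R₀ ≤ R) (h0 : ε ≤ a) (h2 : b ≤ 1 - ε)
    (hc : Wr O N.cv (N.s e) N.r a b R c) (hs : c ∈ (Sm N.cv).ch k 3) :
    bd k c ∈ (N.Lb R₀ (w.T e)).ch k 2 :=
  Sb.ch_mono ((hB.mono le_rfl hR).fw hR h0 h2)
    (Sml.mem_inf (hc.mem N.cv_open N.cv_cover).2 (Sb.bd_mem hs))

variable [T2Space X]

theorem deg_big (hd : N.Deg M O u) (hB : N.Big ε R₀) (hε : 0 < ε) (hR : R₀ ≤ R) (h0 : ε ≤ a)
    (h1 : a < b) (h2 : b ≤ 1 - ε) (hc : Wr O N.cv (N.s e) N.r a b R c) (hs : c ∈ (Sm N.cv).ch k 3) :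
    ev k (cup (LinearMap.mul k k) 2 (mc k N M e) (mc k N M (rev e))) (bd k c) = u := by
  obtain ⟨R₁, h3⟩ := deg_wr N M hd e (hε.trans_le h0) h1 (by linarith)
  obtain ⟨c', s1, s2⟩ := exists_wr N.cv_open N.cv_cover O h1 (box_cpt N e a b (max R R₁))
  obtain ⟨ρ, -, y, r2, r3⟩ := Vc.sm_RN N.cv_open N.cv_cover (hc.sub N.cv_open N.cv_cover
    (s2.mono N.cv_open N.cv_cover le_rfl le_rfl (le_max_left _ _) (box_cpt N e a b R))) (sub_mem hs s1)
  have hZ := cup_Z_sb (LinearMap.mul k k) (n := 2) rfl (hB.mc_fw (k := k) (M := M) (e := e) hR h0 h2).1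
    (hB.mc_fw (k := k) (M := M) (e := e) hR h0 h2).2
  have e1 : bd k c = bd k c' - bd k y := by
    have := congrArg (bd k) r3
    rw [bd_bd, map_add, map_sub] at this
    rw [eq_sub_iff_add_eq, ← sub_eq_zero, this]; abel
  rw [e1, map_sub, h3 _ (le_max_right _ _) c' s2 (Sb.bd_mem s1), ev_bd, Tp.Sb.ev_eq_zero hZ r2, sub_zero]

/-- **the degree of the torus of a small wall** -/
theorem tor_s_big (hd : N.Deg M O u) (hB : N.Big ε R₀) (hε : 0 < ε) (hR : R₀ ≤ R) (h0 : ε ≤ a)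
    (h1 : a < b) (h2 : b ≤ 1 - ε) (hc : Wr O N.cv (N.s e) N.r a b R c) (hs : c ∈ (Sm N.cv).ch k 3)
    {R' : ℝ} (h : bd k c ∈ (N.Lb R' (w.T e)).ch k 2) (h' : bd k (bd k c) = 0) :
    (N.tor M R' e (bd k c) h h').s = u :=
  (tor_s h h').trans (deg_big hd hB hε hR h0 h1 h2 hc hs)

end Crest.Agent.N255.En.Lev

end
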