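import Crest.Agent.N255.En.MdA
import Crest.Agent.N255.Lv.Tm

/-!
# Row 255 (helper86): an abstract model has matching walls
-/

set_option autoImplicit false

noncomputable section

namespace Crest.Agent.N255.Lv.TM

open Pt

variable {ι S K : Type} [DecidableEq ι] [DecidableEq S] [MulAction (FreeGroup ι) S] [LinearOrder K]
  {M : Ce.Mir S K (FreeGroup ι) (Nd ι) (Ed ι)} {w : En.Wl ι S} (Z : TM M w) (L : Ch.Loc M)
include Z

theorem op_eq : L.op = rev := funext fun e =>
  (tgt_eq' (Z.tgt_eq ▸ (L.tgt_op e).symm : tgt e = tgt (L.op e))).resolve_left (L.op_ne e)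

theorem wm : En.Wm w L where
  Γ := Z.Γ_eq
  src := Z.src_eq
  tgt := Z.tgt_eq
  op := Z.op_eq L
  T e := Set.ext fun a => (Z.sp_tgt e a).symm
  B e a := by
    simp only [Z.mem_B, Z.sp_none, Hd, not_forall, exists_prop, and_comm]

end Crest.Agent.N255.Lv.TM

end
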