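import Crest.Agent.N255.En.Deg
import Crest.Agent.N255.Dg.Met

/-!
# Row 255 (helper87): the degree on windows from the degree at infinity
-/

set_option autoImplicit false
open Set

noncomputable section

namespace Crest.Agent.N255.En
open Tp Nv Pt Lv Dg

variable {ι S : Type} [DecidableEq ι] [MulAction (FreeGroup ι) S] {w : Wl ι S}
  {F : Subgroup (FreeGroup ι)} {X : Type} [TopologicalSpace X] [MulAction F X]

namespace Md
variable (M : Md w) (k : Type) [CommRing k] (e : Ed ι)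

open Classical in
/-- `α ∪ β` extended by zero -/
def ga (v : Tu S 2) : k := if range v ⊆ w.T e then t2 k (M.mer e) (M.mer (rev e)) v else 0

open Classical in
/-- its coboundary behind the wall -/
def om (x : Tu S 3) : k := if ∀ i, x i ∉ w.B e then td k (M.ga k e) x else 0

variable {k e}

theorem td_ga {x : Tu S 3} (h : x ∈ w.Ct (w.T e) 3) : td k (M.ga k e) x = 0 := by
  rw [← M.td_t2 k e (rev e) (w.TB e) (fun a ha => w.TB _ a ((w.T_rev e).symm ▸ ha)) x h, td_apply,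
    td_apply]
  exact Finset.sum_congr rfl fun i _ => by rw [ga, if_pos ((range_tf x i).trans h.1)]

theorem om_zero {x : Tu S 3} (h : Cq (Cl w.Γ) (range x)) (h' : ∀ i, x i ∉ w.B (rev e)) :
    M.om k e x = 0 := by
  rw [om]
  split_ifs with c
  · exact M.td_ga ⟨by rintro _ ⟨i, rfl⟩; exact (w.tri e _).resolve_right (not_or.2 ⟨c i, h' i⟩), h⟩
  · rfl

theorem ga_supp (v : Tu S 2) (h : M.ga k e v ≠ 0) : ∃ i, v i ∈ w.T e :=
  ⟨0, (by_contra fun c => h (if_neg c) : range v ⊆ w.T e) ⟨0, rfl⟩⟩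

theorem om_supp (x : Tu S 3) (h : M.om k e x ≠ 0) : ∃ i, x i ∈ w.T e := by
  rw [om] at h
  split_ifs at h
  · rw [td_apply] at h
    obtain ⟨i, -, h⟩ := Finset.exists_ne_zero_of_sum_ne_zero h
    exact (M.ga_supp _ (right_ne_zero_of_smul h)).elim fun j h => ⟨_, h⟩
  · exact absurd rfl h

theorem td_om {x : Tu S 4} (h : Cq (Cl w.Γ) (range x)) : td k (M.om k e) x = 0 := by
  by_cases c : ∀ i, x i ∉ w.B e
  · refine .trans ?_ (congrFun (td_td (k := k) (M.ga k e)) x)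
    rw [td_apply, td_apply]
    exact Finset.sum_congr rfl fun i _ => by
      rw [om, if_pos (show ∀ j, tf x i j ∉ w.B e from fun j => c _)]
  · obtain ⟨j, hj⟩ := not_forall_not.1 c
    rw [td_apply]
    exact Finset.sum_eq_zero fun i _ => smul_eq_zero_of_right _ (M.om_zero (h.mono (range_tf x i))
      fun l hl => w.BB e _ _ hj hl (h _ ⟨_, rfl⟩ _ ⟨_, rfl⟩))

end Md

namespace Lev
variable (N : Lev w F X) {k : Type} [Field k]

/-- the labelling has degree `dg` at infinity -/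
def Top (O : Ori k 3 X) (dg : (Tu S 3 → k) → k) : Prop :=
  ∃ R₁, ∀ R, R₁ ≤ R → ∀ ω : Tu S 3 → k, (∀ x : Tu S 4, Cq (Cl w.Γ) (range x) → td k ω x = 0) →
    ∀ A : Set S, A.Finite → (∀ x, ω x ≠ 0 → ∃ i, x i ∈ A) → ∀ C, IsCompact C →
    cob k (pb N.lab {x | R < N.r x} ω) ∈ (N.Sb Cᶜ).van k k 4 →
    ∀ z ∈ (Sm N.cv).ch k 4, O.Fund C z → ev k (pb N.lab {x | R < N.r x} ω) (bd k z) = dg ω

variable {N} {M : Md w} {O : Ori k 3 X} {u : kˣ} {dg : (Tu S 3 → k) → k}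

theorem degA_of_top (h : N.Top O dg) (hu : ∀ e, dg (M.om k e) = -u) : N.DegA M O u 3 := by
  classical
  intro e l l' h0 h1 h2
  obtain ⟨R₁, h⟩ := h
  obtain ⟨D, hD⟩ := N.r_lip
  obtain ⟨a, ha⟩ := N.lab_side (1 - l') (by linarith)
  obtain ⟨b, hb⟩ := N.lab_side l h0
  obtain ⟨R, r0, r1, ra, rb⟩ : ∃ R, N.R0 ≤ R ∧ R₁ ≤ R ∧ a ≤ R ∧ b ≤ R :=
    ⟨max (max N.R0 R₁) (max a b), by simp, by simp, by simp, by simp⟩
  refine ⟨R + |D|, fun R' r K z₁ z₂ σ c hK s fu p₁ p₂ eq hσ hc hb' => ?_⟩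
  have cq : ∀ {n} {ρ : Sx n X}, ρ ∈ (Sm N.cv).S n → range ρ ⊆ {x | R < N.r x} →
      Cq (Cl w.Γ) (range (vl N.lab ρ)) := by
    rintro n ρ ⟨U, h1, h2⟩ h3 _ ⟨i, rfl⟩ _ ⟨j, rfl⟩
    exact N.lab_cl U h1 _ (h2 ⟨_, rfl⟩) _ (h2 ⟨_, rfl⟩) (r0.trans_lt (h3 ⟨_, rfl⟩))
      (r0.trans_lt (h3 ⟨_, rfl⟩))
  have out : ∀ {n} {ρ : Sx n X}, ρ ∈ (N.Sb Kᶜ).S n → ∀ p ∈ range ρ, ∀ q ∈ range ρ,
      p ∉ {x | R < N.r x} → q ∈ {x | R < N.r x} → N.lab q ∉ w.T e := by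
    rintro n ρ ⟨h1, U, h3, h4⟩ p hp q hq h5 h6 h7
    have h8 := abs_le.1 (N.lab_T e q (r0.trans_lt h6) h7)
    have h9 := hD U h3 p (h4 hp) q (h4 hq)
    exact h1 hq (s ⟨by linarith [show N.r p ≤ R from not_lt.1 h5, le_abs_self D], by linarith [h8.1], by linarith [h8.2]⟩)
  have lo : ∀ x, R < N.r x → N.s e x < l' → N.lab x ∉ w.B e := fun x p q =>
    ha e x (ra.trans_lt p) (by linarith)
  have hi : ∀ x, R < N.r x → l < N.s e x → N.lab x ∉ w.B (rev e) := fun x p q =>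
    hb _ x (rb.trans_lt p) (by rw [N.s_rev]; linarith)
  have e0 := h R r1 (M.om k e) (fun _ => M.td_om) _ (w.T_fin e) M.om_supp K hK
    (fun ρ hρ => cob_pb (fun c => by rw [← td_eq]; exact M.td_om (cq hρ.2 c)) M.om_supp (out hρ))
    _ (add_mem (Sb.ch_mono Sb.inf_le_right p₁) (Sb.ch_mono Sb.inf_le_right p₂)) fu
  have m₂ : σ + bd k z₂ ∈ (N.Sb {x | l < N.s e x}).ch k 3 :=
    add_mem (Sb.ch_mono (sb_mono fun _ h => h.1) hσ) (Sb.bd_mem p₂)
  have e1 : ev k (pb N.lab {x | R < N.r x} (M.om k e)) (σ + bd k z₂) = 0 :=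
    Sb.ev_eq_zero (fun ρ hρ => by
      rw [pb]
      split_ifs with c
      exacts [M.om_zero (cq hρ.2 c) fun i => hi _ (c ⟨_, rfl⟩) (hρ.1 ⟨_, rfl⟩), rfl]) m₂
  have e2 : ev k (pb N.lab {x | R < N.r x} (M.om k e)) c =
      ev k (cob k (pb N.lab {x | R < N.r x} (M.ga k e))) c :=
    Sb.ev_congr (fun ρ hρ => by
      rw [Pi.sub_apply, sub_eq_zero, pb]
      split_ifs with c
      · rw [Md.om, if_pos (show ∀ i, vl N.lab ρ i ∉ w.B e from
          fun i => lo _ (c ⟨_, rfl⟩) (hρ.1 ⟨_, rfl⟩).2), td_apply, cob_apply]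
        exact Finset.sum_congr rfl fun i _ => by rw [pb, if_pos ((range_fc ρ i).trans c), vl_fc]
      · exact (cob_pb (fun c' => absurd c' c) M.ga_supp (out ⟨fun _ h => (hρ.1 h).1, hρ.2⟩)).symm) hc
  have e3 : ev k (pb N.lab {x | R < N.r x} (M.ga k e)) (bd k σ) =
      ev k (rs N.lab (t2 k (M.mer e) (M.mer (rev e)))) (bd k σ) :=
    Sb.ev_congr (fun ρ hρ => by
      have c : range ρ ⊆ {x | R < N.r x} := fun x hx =>
        show R < N.r x by linarith [show R' < N.r x from (hρ.1 hx).2, abs_nonneg D]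
      rw [Pi.sub_apply, sub_eq_zero, pb, if_pos c, Md.ga, if_pos, rs_apply]
      rintro _ ⟨i, rfl⟩
      exact (w.tri e _).resolve_right (not_or.2 ⟨lo _ (c ⟨_, rfl⟩) (hρ.1 ⟨_, rfl⟩).1.2,
        hi _ (c ⟨_, rfl⟩) (hρ.1 ⟨_, rfl⟩).1.1⟩)) (mem_inter (Sb.bd_mem hσ) hb')
  have e4 : bd k c = -bd k σ := by rw [eq_neg_iff_add_eq_zero, add_comm, ← map_add, ← eq, bd_bd]
  rw [map_add, eq, show σ + c + bd k z₂ = c + (σ + bd k z₂) by abel, map_add, e1, e2, ← ev_bd, e4,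
    map_neg, e3, hu, add_zero] at e0
  exact neg_injective e0

theorem deg_of_top (h : N.Top O dg) (hu : ∀ e, dg (M.om k e) = -u) : N.Deg M O u :=
  (degA_of_top h hu).deg (by norm_num)

end Lev

end Crest.Agent.N255.En

end
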